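import Vale.Agent.P015.H886.PopWin
import Vale.Agent.P015.H518.StripZ
import Vale.Agent.P015.H83.Tree

/-! SS: strict subadditivity, and the fat leaf theorem, from TILE and TWOGRP. -/

namespace Vale.Agent.P015.H886

open Finset
open Vale.Agent.P015.H518 (cr nm Tile)

/-- statement of the two-group lemma -/
def TwoGrp : Prop := ∀ {G s D X : ℕ} {M : Fin G × Fin s → ℕ} {R : ℤ} {y c₃ : ℝ}
    {g : ℕ → ℤ × ℤ} {t0 t1 : ℕ} {P : Fin G × Fin s → Finset ℤ},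
    2 ≤ G → 1 ≤ s → (Pairwise fun b b' => Nat.Coprime (M b) (M b')) →
    (∀ b, (M b : ℤ) ∣ R ^ 2 + 1) → (∀ b, Real.exp y ≤ M b) → (∀ b, (M b : ℝ) ≤ Real.exp (2 * y)) →
    1 ≤ D → D ≤ X → t0 ≤ t1 →
    (∀ t t', t0 ≤ t → t ≤ t1 → t0 ≤ t' → t' ≤ t1 → g t = g t' → t = t') →
    (∀ t, t0 ≤ t → t < t1 → sd (g (t + 1) - g t) ≤ D) →
    (X : ℤ) < sd (g t1 - g t0) → (∀ t, t0 ≤ t → t ≤ t1 → sd (g t - g t0) ≤ X + D) →
    (∀ b, ((P b).card : ℝ) ≤ (M b : ℝ) ^ (1 - c₃)) →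
    (∀ t t', t0 ≤ t → t ≤ t1 → t0 ≤ t' → t' ≤ t1 →
      8 * ((univ : Finset (Fin G × Fin s)).filter
        (fun b => res R (M b) (g t' - g t) ∉ P b)).card ≤ G) →
    (∀ t t', t0 ≤ t → t ≤ t1 → t0 ≤ t' → t' ≤ t1 →
      ((cr (g t1 - g t0) (g t' - g t) : ℤ) : ℝ) ^ 2 ≤ Real.exp (2 * y) * (nm (g t1 - g t0) : ℤ)) →
    2 ≤ c₃ * s → 192 * (D : ℝ) ≤ Real.exp y →
    768 * (D : ℝ) ^ 2 * Real.exp ((4 * s + 1) * y) < X → 2401 * (D : ℝ) ^ 2 < Real.exp (4 * y) →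
    False

theorem nm_le_of_sd {z : ℤ × ℤ} {a : ℤ} (h : sd z ≤ a) : nm z ≤ 2 * a ^ 2 := by
  rw [sd_le] at h
  have h2 : z.1 ^ 2 ≤ a ^ 2 := sq_le_sq' (by linarith [abs_le.1 h.1]) (abs_le.1 h.1).2
  have h3 : z.2 ^ 2 ≤ a ^ 2 := sq_le_sq' (by linarith [abs_le.1 h.2]) (abs_le.1 h.2).2
  rw [nm]
  linarith

theorem le_nm_of_sd {z : ℤ × ℤ} {a : ℤ} (ha : 0 ≤ a) (h : a ≤ sd z) : a ^ 2 ≤ nm z := by
  rw [nm]
  rw [sd, le_max_iff] at h
  rcases h with h | h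
  · have : a ^ 2 ≤ z.1 ^ 2 := by rw [← sq_abs z.1]; exact pow_le_pow_left₀ ha h 2
    nlinarith [sq_nonneg z.2]
  · have : a ^ 2 ≤ z.2 ^ 2 := by rw [← sq_abs z.2]; exact pow_le_pow_left₀ ha h 2
    nlinarith [sq_nonneg z.1]

/-- the counting function of the tree -/
noncomputable def fc (g : ℕ → ℤ × ℤ) (N : ℕ) (R : ℤ) (M : ℕ) : ℝ :=
  Real.log ((cl R M ((range N).image g)).card)

theorem fc_nonneg (g : ℕ → ℤ × ℤ) (N : ℕ) (R : ℤ) (M : ℕ) : 0 ≤ fc g N R M :=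
  Real.log_natCast_nonneg _

theorem exp20 : (12960000 : ℝ) ≤ Real.exp 20 := by
  have h1 : (2.7 : ℝ) ^ 20 ≤ Real.exp 20 := by
    have h2 : (2.7 : ℝ) ≤ Real.exp 1 := by linarith [Real.exp_one_gt_d9]
    calc (2.7 : ℝ) ^ 20 ≤ (Real.exp 1) ^ 20 := pow_le_pow_left₀ (by norm_num) h2 20
      _ = Real.exp 20 := by rw [← Real.exp_nat_mul]; norm_num
  refine le_trans ?_ h1
  norm_num

theorem num_K {X D s G y ε δ r : ℝ} (hX1 : 1 ≤ X) (hD : 0 ≤ D) (h10 : 10 * D ≤ X)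
    (hXu : X ≤ 2 * Real.exp ((4 * s + 3) * y)) (hy : 20 ≤ y) (hδs : δ * s = ε / 32)
    (hr : r = G * s) (hG : 16 * (16 * s + 15) ≤ G * ε) :
    2 * (4 * (X + D) + 1) ^ 4 * Real.exp (δ * (r * (2 * y))) ≤ Real.exp (ε * y * G / 8) := by
  have h1 : 4 * (X + D) + 1 ≤ 18 * Real.exp ((4 * s + 3) * y) := by linarith
  calc 2 * (4 * (X + D) + 1) ^ 4 * Real.exp (δ * (r * (2 * y)))
      ≤ 2 * (18 * Real.exp ((4 * s + 3) * y)) ^ 4 * Real.exp (δ * (r * (2 * y))) := by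
        have : 0 ≤ 4 * (X + D) + 1 := by linarith
        gcongr
    _ = 209952 * (Real.exp ((4 * s + 3) * y)) ^ 4 * Real.exp (δ * (r * (2 * y))) := by ring
    _ ≤ Real.exp 20 * (Real.exp ((4 * s + 3) * y)) ^ 4 * Real.exp (δ * (r * (2 * y))) := by
        have := exp20
        have h2 : (209952 : ℝ) ≤ Real.exp 20 := by linarith
        gcongr
    _ = Real.exp (20 + 4 * ((4 * s + 3) * y) + δ * (r * (2 * y))) := by
        rw [← Real.exp_nat_mul, ← Real.exp_add, ← Real.exp_add]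
        congr 1
    _ ≤ Real.exp (ε * y * G / 8) := by
        rw [Real.exp_le_exp, hr]
        have h2 : δ * (G * s * (2 * y)) = ε / 16 * G * y := by
          calc δ * (G * s * (2 * y)) = (δ * s) * (2 * G * y) := by ring
            _ = _ := by rw [hδs]; ring
        rw [h2]
        have h4 : (16 * s + 15) * y ≤ ε / 16 * G * y := by
          have : 16 * s + 15 ≤ ε / 16 * G := by linarith
          gcongr
        nlinarith

theorem num_X {r : ℕ} {M : Fin r → ℕ} {X D : ℕ} {s y : ℝ} (hlo : ∀ b, Real.exp y ≤ M b)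
    (hD : (D : ℝ) ≤ Real.exp y) (hX1 : (1 : ℝ) ≤ X)
    (hXu : (X : ℝ) ≤ 2 * Real.exp ((4 * s + 3) * y)) (hy : 20 ≤ y)
    (hr : 16 * s + 19 ≤ (r : ℝ)) :
    (100 * D * (2 * X + 1) ^ 2) ^ 2 ≤ ∏ b, M b := by
  have h1 : ((100 * (D : ℝ) * (2 * X + 1) ^ 2) ^ 2) ≤ ((∏ b, M b : ℕ) : ℝ) := by
    have h2 : (2 * (X : ℝ) + 1) ≤ 6 * Real.exp ((4 * s + 3) * y) := by linarith
    calc (100 * (D : ℝ) * (2 * X + 1) ^ 2) ^ 2
        ≤ (100 * Real.exp y * (6 * Real.exp ((4 * s + 3) * y)) ^ 2) ^ 2 := by gcongr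
      _ = 12960000 * ((Real.exp y) ^ 2 * (Real.exp ((4 * s + 3) * y)) ^ 4) := by ring
      _ ≤ Real.exp 20 * ((Real.exp y) ^ 2 * (Real.exp ((4 * s + 3) * y)) ^ 4) := by
          have := exp20
          gcongr
      _ = Real.exp (20 + (2 * y + 4 * ((4 * s + 3) * y))) := by
          rw [← Real.exp_nat_mul, ← Real.exp_nat_mul, ← Real.exp_add, ← Real.exp_add]
          congr 1
      _ ≤ Real.exp (r * y) := by
          rw [Real.exp_le_exp]
          nlinarith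
      _ = ∏ b : Fin r, Real.exp y := by
          rw [Finset.prod_const, Finset.card_univ, Fintype.card_fin, ← Real.exp_nat_mul]
      _ ≤ ∏ b, (M b : ℝ) := Finset.prod_le_prod (fun _ _ => (Real.exp_pos _).le) (fun b _ => hlo b)
      _ = _ := by push_cast; rfl
  exact_mod_cast h1

theorem num_L {r : ℕ} {M : Fin r → ℕ} {g : ℕ → ℤ × ℤ} {N : ℕ} {R : ℤ} {δ y : ℝ} (hδ : 0 < δ)
    (hcl : ∀ M', (0 : ℝ) < (cl R M' ((range N).image g)).card) (hM0 : ∀ b, (0 : ℝ) < M b)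
    (hhi : ∀ b, (M b : ℝ) ≤ Real.exp (2 * y))
    (hcon : ∑ b, fc g N R (M b) - δ * ∑ b, Real.log (M b) < fc g N R (∏ b, M b)) :
    ∏ b, ((cl R (M b) ((range N).image g)).card : ℝ) ≤
      Real.exp (δ * (r * (2 * y))) * (cl R (∏ b, M b) ((range N).image g)).card := by
  have hlogs : ∑ b, Real.log (M b) ≤ r * (2 * y) := by
    have : ∀ b ∈ (univ : Finset (Fin r)), Real.log (M b) ≤ 2 * y := fun b _ => by
      rw [Real.log_le_iff_le_exp (hM0 b)]; exact hhi b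
    have h1 := Finset.sum_le_card_nsmul _ _ _ this
    rwa [Finset.card_univ, Fintype.card_fin, nsmul_eq_mul] at h1
  have h1 : ∏ b, ((cl R (M b) ((range N).image g)).card : ℝ) = Real.exp (∑ b, fc g N R (M b)) := by
    rw [Real.exp_sum]
    refine Finset.prod_congr rfl (fun b _ => ?_)
    rw [fc, Real.exp_log (hcl _)]
  have h2 : (((cl R (∏ b, M b) ((range N).image g)).card : ℕ) : ℝ) =
      Real.exp (fc g N R (∏ b, M b)) := by
    rw [fc, Real.exp_log (hcl _)]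
  rw [h1, h2, ← Real.exp_add, Real.exp_le_exp]
  have h3 : δ * ∑ b, Real.log (M b) ≤ δ * (r * (2 * y)) := by gcongr
  linarith

/-- the window is a thin strip -/
theorem strip_app (tile : Tile) {r : ℕ} {M : Fin r → ℕ} {R : ℤ} {y c : ℝ} {D X t0 t1 G : ℕ}
    {g : ℕ → ℤ × ℤ} {P : Fin r → Finset ℤ} (hc : 0 < c) (hGr : G ≤ r) (hG : 1 ≤ G)
    (hR : ∀ b, (M b : ℤ) ∣ R ^ 2 + 1) (hlo : ∀ b, Real.exp y ≤ M b)
    (hhi : ∀ b, (M b : ℝ) ≤ Real.exp (2 * y)) (h01 : t0 ≤ t1)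
    (hstep : ∀ t, t0 ≤ t → t < t1 → sd (g (t + 1) - g t) ≤ D)
    (hXlt : (X : ℤ) < sd (g t1 - g t0)) (hin : ∀ t, t0 ≤ t → t ≤ t1 → sd (g t - g t0) ≤ X + D)
    (hPc : ∀ b, ((P b).card : ℝ) ≤ (M b : ℝ) ^ (1 - c / 2))
    (hbad : ∀ t t', t0 ≤ t → t ≤ t1 → t0 ≤ t' → t' ≤ t1 →
      8 * ((univ : Finset (Fin r)).filter (fun b => res R (M b) (g t' - g t) ∉ P b)).card ≤ G)
    (hexpX : Real.exp y ≤ X) (hDX10 : 10 * D ≤ X)
    (hyc : (2 / c) * (640 * (2 * (D : ℝ) + 1) ^ 2 * r) ≤ y) :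
    ∀ t t', t0 ≤ t → t ≤ t1 → t0 ≤ t' → t' ≤ t1 →
      ((cr (g t1 - g t0) (g t' - g t) : ℤ) : ℝ) ^ 2 ≤ Real.exp (2 * y) * (nm (g t1 - g t0) : ℤ) := by
  have hM0 : ∀ b, (0 : ℝ) < M b := fun b => (Real.exp_pos _).trans_le (hlo b)
  have hM0' : ∀ b, 0 < M b := fun b => by exact_mod_cast hM0 b
  have hnme : (X : ℤ) ^ 2 ≤ nm (g t1 - g t0) := le_nm_of_sd (by positivity) hXlt.le
  have q1 : ∀ k ∈ Finset.Icc t0 t1, ∀ l ∈ Finset.Icc t0 t1,
      ∃ b, H518.res R (M b) (g l - g k) ∈ P b := by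
    intro k hk l hl
    rw [Finset.mem_Icc] at hk hl
    have h2 := hbad k l hk.1 hk.2 hl.1 hl.2
    by_contra hc2
    push Not at hc2
    have h3 : ((univ : Finset (Fin r)).filter (fun b => res R (M b) (g l - g k) ∉ P b))
        = univ := Finset.filter_true_of_mem (fun b _ => hc2 b)
    rw [h3, Finset.card_univ, Fintype.card_fin] at h2
    omega
  have q2 : ((⌊Real.exp (2 * y)⌋₊ : ℕ) : ℤ) ≤ nm (g t1 - g t0) := by
    refine le_trans ?_ hnme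
    have h2 : ((⌊Real.exp (2 * y)⌋₊ : ℕ) : ℝ) ≤ (X : ℝ) ^ 2 := by
      refine (Nat.floor_le (Real.exp_pos _).le).trans ?_
      have : Real.exp (2 * y) = (Real.exp y) ^ 2 := by
        rw [← Real.exp_nat_mul]; norm_num
      rw [this]
      gcongr
    exact_mod_cast h2
  have q3 : ∀ k ∈ Finset.Icc t0 t1, ∀ l ∈ Finset.Icc t0 t1,
      nm (g l - g k) ≤ 25 * nm (g t1 - g t0) := by
    intro k hk l hl
    rw [Finset.mem_Icc] at hk hl
    have h2 : sd (g l - g k) ≤ 2 * (X + D) := by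
      have h3 := sd_sub_le (g l) (g t0) (g k)
      rw [sd_sub_comm (g t0)] at h3
      linarith [hin l hl.1 hl.2, hin k hk.1 hk.2]
    refine (nm_le_of_sd h2).trans (le_trans ?_ (mul_le_mul_of_nonneg_left hnme (by norm_num)))
    have h3 : (10 : ℤ) * D ≤ X := by exact_mod_cast hDX10
    have h4 : (0 : ℤ) ≤ D := by positivity
    nlinarith
  have q4 : 640 * (2 * (D : ℝ) + 1) ^ 2 * ∑ b, ((P b).card : ℝ) / M b < 1 := by
    have h2 : ∀ b ∈ (univ : Finset (Fin r)), ((P b).card : ℝ) / M b ≤ Real.exp (-(c / 2 * y)) := by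
      intro b _
      rw [div_le_iff₀ (hM0 b)]
      refine (hPc b).trans ?_
      calc (M b : ℝ) ^ (1 - c / 2) = (M b : ℝ) ^ (-(c / 2)) * M b := by
            rw [show 1 - c / 2 = -(c / 2) + 1 by ring, Real.rpow_add (hM0 b), Real.rpow_one]
        _ ≤ (Real.exp y) ^ (-(c / 2)) * M b := by
            refine mul_le_mul_of_nonneg_right ?_ (hM0 b).le
            exact Real.rpow_le_rpow_of_nonpos (Real.exp_pos _) (hlo b) (by linarith)
        _ = _ := by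
            rw [← Real.exp_mul]
            congr 2
            ring
    have h3 := Finset.sum_le_card_nsmul _ _ _ h2
    rw [Finset.card_univ, Fintype.card_fin, nsmul_eq_mul] at h3
    calc 640 * (2 * (D : ℝ) + 1) ^ 2 * ∑ b, ((P b).card : ℝ) / M b
        ≤ 640 * (2 * (D : ℝ) + 1) ^ 2 * (r * Real.exp (-(c / 2 * y))) := by gcongr
      _ = (640 * (2 * (D : ℝ) + 1) ^ 2 * r) * Real.exp (-(c / 2 * y)) := by ring
      _ ≤ (c / 2 * y) * Real.exp (-(c / 2 * y)) := by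
          refine mul_le_mul_of_nonneg_right ?_ (Real.exp_pos _).le
          have h4 : (640 * (2 * (D : ℝ) + 1) ^ 2 * r) =
              c / 2 * ((2 / c) * (640 * (2 * (D : ℝ) + 1) ^ 2 * r)) := by
            field_simp
          rw [h4]
          gcongr
      _ < 1 := by
          rw [Real.exp_neg, ← div_eq_mul_inv, div_lt_one (Real.exp_pos _)]
          linarith [Real.add_one_le_exp (c / 2 * y)]
  have h1 := H518.strip tile h01 (fun n ha hb => sd_le.1 (hstep n ha hb)) hM0' hR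
      (P := P) (Mx := ⌊Real.exp (2 * y)⌋₊) q1 (fun b => Nat.le_floor (hhi b)) q2 q3 q4
  intro t t' a1 a2 a3 a4
  have h2 := h1 t (Finset.mem_Icc.2 ⟨a1, a2⟩) t' (Finset.mem_Icc.2 ⟨a3, a4⟩)
  have h3 : (((cr (g t1 - g t0) (g t' - g t)) ^ 2 : ℤ) : ℝ) ≤
      ((⌊Real.exp (2 * y)⌋₊ * nm (g t1 - g t0) : ℤ) : ℝ) := by exact_mod_cast h2
  push_cast at h3
  refine h3.trans ?_
  have h4 : ((⌊Real.exp (2 * y)⌋₊ : ℕ) : ℝ) ≤ Real.exp (2 * y) :=
    Nat.floor_le (Real.exp_pos _).le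
  have h5 : (0 : ℝ) ≤ (nm (g t1 - g t0) : ℤ) := by
    have : 0 ≤ nm (g t1 - g t0) := by rw [nm]; positivity
    exact_mod_cast this
  gcongr

/-- application of the two-group lemma -/
theorem twogrp_app (twogrp : TwoGrp) {G s D X : ℕ} {M : Fin (G * s) → ℕ} {R : ℤ} {y c : ℝ}
    {g : ℕ → ℤ × ℤ} {t0 t1 : ℕ} {P : Fin (G * s) → Finset ℤ}
    (hG2 : 2 ≤ G) (hs1 : 1 ≤ s) (hM : Pairwise fun b b' => Nat.Coprime (M b) (M b'))
    (hR : ∀ b, (M b : ℤ) ∣ R ^ 2 + 1) (hlo : ∀ b, Real.exp y ≤ M b)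
    (hhi : ∀ b, (M b : ℝ) ≤ Real.exp (2 * y)) (hD : 1 ≤ D) (hDX : D ≤ X) (h01 : t0 ≤ t1)
    (hinj : ∀ t t', t0 ≤ t → t ≤ t1 → t0 ≤ t' → t' ≤ t1 → g t = g t' → t = t')
    (hstep : ∀ t, t0 ≤ t → t < t1 → sd (g (t + 1) - g t) ≤ D)
    (hXlt : (X : ℤ) < sd (g t1 - g t0)) (hin : ∀ t, t0 ≤ t → t ≤ t1 → sd (g t - g t0) ≤ X + D)
    (hPc : ∀ b, ((P b).card : ℝ) ≤ (M b : ℝ) ^ (1 - c / 2))
    (hbad : ∀ t t', t0 ≤ t → t ≤ t1 → t0 ≤ t' → t' ≤ t1 →
      8 * ((univ : Finset (Fin (G * s))).filter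
        (fun b => res R (M b) (g t' - g t) ∉ P b)).card ≤ G)
    (hstrip : ∀ t t', t0 ≤ t → t ≤ t1 → t0 ≤ t' → t' ≤ t1 →
      ((cr (g t1 - g t0) (g t' - g t) : ℤ) : ℝ) ^ 2 ≤ Real.exp (2 * y) * (nm (g t1 - g t0) : ℤ))
    (hcs : 2 ≤ c / 2 * s) (h192 : 192 * (D : ℝ) ≤ Real.exp y)
    (hXl : Real.exp ((4 * s + 3) * y) ≤ X) : False := by
  have hD0 : (1 : ℝ) ≤ D := by exact_mod_cast hD
  have hexp0 := Real.exp_pos y
  let e : Fin G × Fin s ≃ Fin (G * s) := finProdFinEquiv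
  have k1 : 768 * (D : ℝ) ^ 2 < (Real.exp y) ^ 2 := by
    have : (192 * (D : ℝ)) ^ 2 ≤ (Real.exp y) ^ 2 := by gcongr
    nlinarith
  have k2 : 2401 * (D : ℝ) ^ 2 < (Real.exp y) ^ 2 := by
    have : (192 * (D : ℝ)) ^ 2 ≤ (Real.exp y) ^ 2 := by gcongr
    nlinarith
  refine twogrp (M := fun b => M (e b)) (P := fun b => P (e b)) (c₃ := c / 2) (R := R) (y := y)
    (g := g) (t0 := t0) (t1 := t1) (D := D) (X := X) hG2 hs1
    (fun b b' hb => hM (fun h => hb (e.injective h))) (fun b => hR _) (fun b => hlo _)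
    (fun b => hhi _) hD hDX h01 hinj hstep hXlt hin
    (fun b => hPc _) ?_ hstrip hcs h192 ?_ ?_
  · intro t t' a1 a2 a3 a4
    refine le_trans (Nat.mul_le_mul_left _ (le_of_eq ?_)) (hbad t t' a1 a2 a3 a4)
    refine Finset.card_bijective e e.bijective (fun b => ?_)
    simp only [Finset.mem_filter, Finset.mem_univ, true_and]
  · have h1 : Real.exp ((4 * s + 3) * y) = Real.exp ((4 * s + 1) * y) * (Real.exp y) ^ 2 := by
      rw [← Real.exp_nat_mul, ← Real.exp_add]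
      congr 1
      push_cast
      ring
    refine lt_of_lt_of_le ?_ hXl
    rw [h1, mul_comm]
    exact mul_lt_mul_of_pos_left k1 (Real.exp_pos _)
  · have h1 : Real.exp (4 * y) = (Real.exp y) ^ 2 * (Real.exp y) ^ 2 := by
      rw [← Real.exp_nat_mul, ← Real.exp_add]
      congr 1
      push_cast
      ring
    rw [h1]
    have h3 : 1 ≤ (Real.exp y) ^ 2 := one_le_pow₀ (by linarith)
    nlinarith

/-- **Strict subadditivity.** -/
theorem strict_sub (tile : Tile) (twogrp : TwoGrp) {D : ℕ} (hD : 1 ≤ D) {c : ℝ} (hc : 0 < c)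
    (hc1 : c < 1) : ∃ (r : ℕ) (δ y₀ : ℝ), 1 ≤ r ∧ 0 < δ ∧ 0 < y₀ ∧
    ∀ (g : ℕ → ℤ × ℤ) (N : ℕ) (R : ℤ), (∀ i, i + 1 < N → sd (g (i + 1) - g i) ≤ D) →
    (∀ i < N, ∀ j < N, g i = g j → i = j) →
    ∀ y : ℝ, y₀ ≤ y → ∀ M : Fin r → ℕ, (Pairwise fun i j => (M i).Coprime (M j)) →
      (∀ b, Real.exp y ≤ M b) → (∀ b, (M b : ℝ) ≤ Real.exp (2 * y)) →
      (∀ b, (M b : ℤ) ∣ R ^ 2 + 1) → ((∏ b, M b : ℕ) : ℝ) ≤ N →
      (∀ b, fc g N R (M b) ≤ (1 - c) * Real.log (M b)) →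
      fc g N R (∏ b, M b) ≤ ∑ b, fc g N R (M b) - δ * ∑ b, Real.log (M b) := by
  obtain ⟨ε, hε⟩ : ∃ ε : ℝ, ε = c / 2 := ⟨_, rfl⟩
  have hε0 : 0 < ε := by rw [hε]; linarith
  have hε1 : ε ≤ 1 := by rw [hε]; linarith
  obtain ⟨s, hs⟩ : ∃ s : ℕ, s = ⌈4 / c⌉₊ := ⟨_, rfl⟩
  have hs4 : 4 / c ≤ (s : ℝ) := by rw [hs]; exact Nat.le_ceil _
  have hs1 : (1 : ℝ) ≤ s := by
    refine le_trans ?_ hs4
    rw [le_div_iff₀ hc]; linarith
  have hs1' : 1 ≤ s := by exact_mod_cast hs1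
  have hs0 : (0 : ℝ) < s := by linarith
  obtain ⟨G, hG⟩ : ∃ G : ℕ, G = ⌈16 * (16 * (s : ℝ) + 15) / ε⌉₊ := ⟨_, rfl⟩
  have hGl : 16 * (16 * (s : ℝ) + 15) / ε ≤ G := by rw [hG]; exact Nat.le_ceil _
  have hGε : 16 * (16 * (s : ℝ) + 15) ≤ G * ε := by rwa [div_le_iff₀ hε0] at hGl
  have hG16 : 16 * (s : ℝ) + 19 ≤ G := by
    have : 16 * (16 * (s : ℝ) + 15) ≤ 16 * (16 * (s : ℝ) + 15) / ε := by
      rw [le_div_iff₀ hε0]
      nlinarith
    linarith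
  have hG2 : 2 ≤ G := by
    have : (2 : ℝ) ≤ G := by linarith
    exact_mod_cast this
  obtain ⟨δ, hδ⟩ : ∃ δ : ℝ, δ = ε / (32 * s) := ⟨_, rfl⟩
  have hδ0 : 0 < δ := by rw [hδ]; positivity
  have hδs : δ * s = ε / 32 := by rw [hδ]; field_simp
  set r : ℕ := G * s with hr
  have hrr : (r : ℝ) = G * s := by rw [hr]; push_cast; ring
  obtain ⟨y₀, hy₀⟩ : ∃ y₀ : ℝ, y₀ = 20 + 192 * D + (2 / c) * (640 * (2 * D + 1) ^ 2 * r) := ⟨_, rfl⟩
  have hD0 : (1 : ℝ) ≤ D := by exact_mod_cast hD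
  have hterm : 0 ≤ (2 / c) * (640 * (2 * (D : ℝ) + 1) ^ 2 * r) := by positivity
  refine ⟨r, δ, y₀, Nat.mul_pos (by omega) hs1', hδ0, by rw [hy₀]; positivity, ?_⟩
  intro g N R hstep hinj y hy M hM hlo hhi hR hN hthin
  have hy20 : 20 ≤ y := by linarith
  have hyD : 192 * (D : ℝ) ≤ y := by linarith
  have hyc : (2 / c) * (640 * (2 * (D : ℝ) + 1) ^ 2 * r) ≤ y := by linarith
  have hyexp : y ≤ Real.exp y := by linarith [Real.add_one_le_exp y]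
  have hDexp : 192 * (D : ℝ) ≤ Real.exp y := hyD.trans hyexp
  have hM0 : ∀ b, (0 : ℝ) < M b := fun b => (Real.exp_pos _).trans_le (hlo b)
  have hM0' : ∀ b, 0 < M b := fun b => by exact_mod_cast hM0 b
  have hP0 : 0 < ∏ b, M b := Finset.prod_pos (fun b _ => hM0' b)
  have hN0 : 0 < N := by
    have h1 : ∏ b, M b ≤ N := by exact_mod_cast hN
    omega
  have hcl : ∀ M', (0 : ℝ) < (cl R M' ((range N).image g)).card := fun M' => by
    have : 0 < (cl R M' ((range N).image g)).card :=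
      Finset.card_pos.2 (Finset.Nonempty.image ⟨g 0, Finset.mem_image_of_mem _
        (Finset.mem_range.2 hN0)⟩ _)
    exact_mod_cast this
  by_contra hcon
  rw [not_le] at hcon
  have hL := num_L hδ0 hcl hM0 hhi hcon
  obtain ⟨X, hXdef⟩ : ∃ X : ℕ, X = ⌈Real.exp ((4 * s + 3) * y)⌉₊ := ⟨_, rfl⟩
  have hXl : Real.exp ((4 * s + 3) * y) ≤ X := by rw [hXdef]; exact Nat.le_ceil _
  have hX1 : 1 ≤ Real.exp ((4 * s + 3) * y) := Real.one_le_exp (by positivity)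
  have hXu : (X : ℝ) ≤ 2 * Real.exp ((4 * s + 3) * y) := by
    have := Nat.ceil_lt_add_one (show 0 ≤ Real.exp ((4 * s + 3) * y) by positivity)
    rw [← hXdef] at this
    linarith
  have hX1' : (1 : ℝ) ≤ X := hX1.trans hXl
  have hexpX : Real.exp y ≤ X := by
    refine le_trans ?_ hXl
    rw [Real.exp_le_exp]
    nlinarith
  have h10D : 10 * (D : ℝ) ≤ X := by linarith
  have hDX : D ≤ X := by
    have : (D : ℝ) ≤ X := by linarith
    exact_mod_cast this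
  have hDX10 : 10 * D ≤ X := by exact_mod_cast h10D
  have hK := num_K hX1' (by linarith) h10D hXu hy20 hδs hrr hGε
  have hXN := num_X (M := M) (D := D) (X := X) (s := (s : ℝ)) hlo (by linarith) hX1' hXu hy20 (by
    rw [hrr]
    have : (G : ℝ) * 1 ≤ G * s := by gcongr
    linarith)
  have hN' : ∏ b, M b ≤ N := by exact_mod_cast hN
  have hthin' : ∀ b, ((cl R (M b) ((range N).image g)).card : ℝ) ≤ (M b : ℝ) ^ (1 - c) := by
    intro b
    have h1 := hthin b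
    rw [fc, Real.log_le_iff_le_exp (hcl _)] at h1
    rwa [Real.rpow_def_of_pos (hM0 b), mul_comm (Real.log _)]
  obtain ⟨P, hPc, t0, t1, h01, h1N, hXlt, hin, hpop⟩ := popwin (X := X) hD hM hR hstep hinj hN' hε0.le
    hlo hthin' (Real.exp_pos _).le hL hK (Real.exp_pos _) hXN
  -- few bad moduli
  have hbad : ∀ t t', t0 ≤ t → t ≤ t1 → t0 ≤ t' → t' ≤ t1 →
      8 * ((univ : Finset (Fin r)).filter (fun b => res R (M b) (g t' - g t) ∉ P b)).card ≤ G := by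
    intro t t' a1 a2 a3 a4
    have h1 := hpop t t' a1 a2 a3 a4
    rw [Real.log_exp] at h1
    have h2 : 0 < ε * y := by positivity
    have h3 : (8 * ((univ : Finset (Fin r)).filter
        (fun b => res R (M b) (g t' - g t) ∉ P b)).card : ℝ) * (ε * y) ≤ G * (ε * y) := by
      linarith
    have h4 := le_of_mul_le_mul_right h3 h2
    exact_mod_cast h4
  have hPc' : ∀ b, ((P b).card : ℝ) ≤ (M b : ℝ) ^ (1 - c / 2) := by
    intro b
    have := hPc b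
    rwa [show 1 - c + ε = 1 - c / 2 by rw [hε]; ring] at this
  have hstrip := strip_app tile hc (Nat.le_mul_of_pos_right G hs1') (by omega) hR hlo hhi h01
    (fun t a1 a2 => hstep t (by omega)) hXlt hin hPc' hbad hexpX hDX10 hyc
  refine twogrp_app twogrp hG2 hs1' hM hR hlo hhi hD hDX h01
    (fun t t' _ a2 _ a4 h => hinj t (by omega) t' (by omega) h)
    (fun t a1 a2 => hstep t (by omega)) hXlt hin hPc' hbad hstrip ?_ hDexp hXl
  rw [div_le_iff₀ hc] at hs4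
  linarith

end Vale.Agent.P015.H886
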