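import Vale.Agent.P015.MathlibUsed

/-! POP: popular differences modulo coprime moduli. -/

namespace Vale.Agent.P015.H886

open Finset

/-- linear form defining the lattice -/
def lf (R : ℤ) (z : ℤ × ℤ) : ℤ := z.1 + R * z.2

/-- residue of a point -/
def res (R : ℤ) (M : ℕ) (z : ℤ × ℤ) : ℤ := lf R z % M

/-- sup norm -/
def sd (z : ℤ × ℤ) : ℤ := max |z.1| |z.2|

/-- residue classes of a set -/
def cl (R : ℤ) (M : ℕ) (G : Finset (ℤ × ℤ)) : Finset ℤ := G.image (res R M)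

/-- classes `x` of `G` such that `x + h` is a class of `G` -/
def pop (R : ℤ) (M : ℕ) (G : Finset (ℤ × ℤ)) (h : ℤ × ℤ) : Finset ℤ :=
  (cl R M G).filter (fun x => (x + lf R h) % M ∈ cl R M G)

theorem lf_add (R : ℤ) (z w : ℤ × ℤ) : lf R (z + w) = lf R z + lf R w := by
  simp only [lf, Prod.fst_add, Prod.snd_add]; ring

theorem lf_sub (R : ℤ) (z w : ℤ × ℤ) : lf R (z - w) = lf R z - lf R w := by
  simp only [lf, Prod.fst_sub, Prod.snd_sub]; ring

theorem pop1 (M : ℕ) (C : Finset ℤ) (k : ℕ) :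
    ((Ico (0 : ℤ) M).filter (fun c => k ≤ (C.filter (fun x => (x + c) % M ∈ C)).card)).card * k
      ≤ C.card ^ 2 := by
  have h1 : ((Ico (0 : ℤ) M).filter
      (fun c => k ≤ (C.filter (fun x => (x + c) % M ∈ C)).card)).card * k
      ≤ ∑ c ∈ Ico (0 : ℤ) M, (C.filter (fun x => (x + c) % M ∈ C)).card := by
    rw [← smul_eq_mul]
    refine (Finset.card_nsmul_le_sum _ _ _ (fun c hc => (Finset.mem_filter.1 hc).2)).trans ?_
    exact Finset.sum_le_sum_of_subset (Finset.filter_subset _ _)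
  refine h1.trans ?_
  have h2 : ∑ c ∈ Ico (0 : ℤ) M, (C.filter (fun x => (x + c) % M ∈ C)).card
      = ∑ x ∈ C, ((Ico (0 : ℤ) M).filter (fun c => (x + c) % M ∈ C)).card := by
    simp only [Finset.card_filter]
    exact Finset.sum_comm
  rw [h2, sq, ← smul_eq_mul]
  refine Finset.sum_le_card_nsmul _ _ _ (fun x _ => ?_)
  refine Finset.card_le_card_of_injOn (fun c => (x + c) % M)
    (fun c hc => (Finset.mem_filter.1 hc).2) ?_
  intro c hc c' hc' h
  have hc1 := Finset.mem_Ico.1 (Finset.mem_filter.1 (Finset.mem_coe.1 hc)).1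
  have hc2 := Finset.mem_Ico.1 (Finset.mem_filter.1 (Finset.mem_coe.1 hc')).1
  have h3 : (x + c) % (M : ℤ) = (x + c') % (M : ℤ) := h
  have h4 : c % (M : ℤ) = c' % (M : ℤ) := by
    have : (x + c) ≡ (x + c') [ZMOD M] := h3
    exact Int.ModEq.add_left_cancel' x this
  rwa [Int.emod_eq_of_lt hc1.1 hc1.2, Int.emod_eq_of_lt hc2.1 hc2.2] at h4

section
variable {ι : Type*} [Fintype ι] {R : ℤ} {M : ι → ℕ}

theorem prod_dvd (hcop : Pairwise (fun b b' => Nat.Coprime (M b) (M b'))) {z : ℤ}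
    (h : ∀ b, (M b : ℤ) ∣ z) : ((∏ b, M b : ℕ) : ℤ) ∣ z := by
  rw [Nat.cast_prod]
  refine Finset.prod_dvd_of_coprime ?_ (fun b _ => h b)
  intro b _ b' _ hbb
  exact Nat.isCoprime_iff_coprime.2 (hcop hbb)

theorem dvd_prod (b : ι) : (M b : ℤ) ∣ ((∏ b, M b : ℕ) : ℤ) := by
  exact_mod_cast Finset.dvd_prod_of_mem M (Finset.mem_univ b)

theorem pop2 [DecidableEq ι] (hcop : Pairwise (fun b b' => Nat.Coprime (M b) (M b')))
    (G : Finset (ℤ × ℤ)) (h : ℤ × ℤ) :
    (pop R (∏ b, M b) G h).card ≤ ∏ b, (pop R (M b) G h).card := by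
  rw [← Fintype.card_piFinset]
  refine Finset.card_le_card_of_injOn (fun x b => x % M b) ?_ ?_
  · intro x hx
    rw [Finset.mem_coe, pop, Finset.mem_filter] at hx
    obtain ⟨hx1, hx2⟩ := hx
    obtain ⟨z, hz, rfl⟩ := Finset.mem_image.1 hx1
    obtain ⟨z', hz', he⟩ := Finset.mem_image.1 hx2
    rw [Finset.mem_coe, Fintype.mem_piFinset]
    intro b
    rw [pop, Finset.mem_filter]
    have e1 : res R (∏ b, M b) z % (M b : ℤ) = res R (M b) z := by
      rw [res, res, Int.emod_emod_of_dvd _ (dvd_prod b)]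
    refine ⟨?_, ?_⟩
    · simp only
      rw [e1]
      exact Finset.mem_image_of_mem _ hz
    · simp only
      have e2 : (res R (∏ b, M b) z % (M b : ℤ) + lf R h) % (M b : ℤ) = res R (M b) z' := by
        rw [Int.emod_add_emod, ← Int.emod_emod_of_dvd (res R (∏ b, M b) z + lf R h)
          (dvd_prod (M := M) b), ← he, res, res, Int.emod_emod_of_dvd _ (dvd_prod b)]
      rw [e2]
      exact Finset.mem_image_of_mem _ hz'
  · intro x hx x' hx' he
    rw [Finset.mem_coe, pop, Finset.mem_filter] at hx hx'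
    obtain ⟨z, _, rfl⟩ := Finset.mem_image.1 hx.1
    obtain ⟨z', _, rfl⟩ := Finset.mem_image.1 hx'.1
    have h1 : ((∏ b, M b : ℕ) : ℤ) ∣ res R (∏ b, M b) z - res R (∏ b, M b) z' := by
      apply prod_dvd hcop
      intro b
      have := congrFun he b
      exact Int.ModEq.dvd (show res R (∏ b, M b) z' ≡ res R (∏ b, M b) z [ZMOD M b] from this.symm)
    have h2 : res R (∏ b, M b) z' % ((∏ b, M b : ℕ) : ℤ) = res R (∏ b, M b) z % ((∏ b, M b : ℕ) : ℤ) :=
      (Int.modEq_iff_dvd.2 h1)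
    rw [res, res, Int.emod_emod_of_dvd _ dvd_rfl, Int.emod_emod_of_dvd _ dvd_rfl] at h2
    exact h2.symm

end

end Vale.Agent.P015.H886
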