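import Vale.Agent.P015.H886.Win

/-! POP + WIN: popular classes and a window all of whose differences are popular for most moduli. -/

namespace Vale.Agent.P015.H886

open Finset

/-- popular classes: shifts which keep a proportion `M ^ (-ε)` of the classes of `G` -/
noncomputable def Pset (R : ℤ) (M : ℕ) (G : Finset (ℤ × ℤ)) (ε : ℝ) : Finset ℤ :=
  (Ico (0 : ℤ) M).filter (fun c => (M : ℝ) ^ (-ε) * ((cl R M G).card : ℝ) ≤
    (((cl R M G).filter (fun x => (x + c) % M ∈ cl R M G)).card : ℝ))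

theorem card_Pset {R : ℤ} {M : ℕ} (hM : 0 < M) (G : Finset (ℤ × ℤ)) (hG : G.Nonempty) (ε : ℝ) :
    ((Pset R M G ε).card : ℝ) ≤ (M : ℝ) ^ ε * ((cl R M G).card : ℝ) := by
  have hM0 : (0 : ℝ) < M := by exact_mod_cast hM
  have hC0 : (0 : ℝ) < (cl R M G).card := by
    have : 0 < (cl R M G).card := Finset.card_pos.2 (hG.image _)
    exact_mod_cast this
  set a : ℝ := (M : ℝ) ^ (-ε) * ((cl R M G).card : ℝ) with ha
  have ha0 : 0 < a := mul_pos (Real.rpow_pos_of_pos hM0 _) hC0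
  have h1 := pop1 M (cl R M G) ⌈a⌉₊
  have h2 : Pset R M G ε ⊆ (Ico (0 : ℤ) M).filter
      (fun c => ⌈a⌉₊ ≤ ((cl R M G).filter (fun x => (x + c) % M ∈ cl R M G)).card) := by
    intro c hc
    rw [Pset, Finset.mem_filter] at hc
    rw [Finset.mem_filter]
    exact ⟨hc.1, Nat.ceil_le.2 hc.2⟩
  have h3 : ((Pset R M G ε).card : ℝ) * a ≤ ((cl R M G).card : ℝ) ^ 2 := by
    calc ((Pset R M G ε).card : ℝ) * a
        ≤ (((Ico (0 : ℤ) M).filter
      (fun c => ⌈a⌉₊ ≤ ((cl R M G).filter (fun x => (x + c) % M ∈ cl R M G)).card)).card : ℝ)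
          * (⌈a⌉₊ : ℝ) := by
          have := Finset.card_le_card h2
          have h4 : a ≤ (⌈a⌉₊ : ℝ) := Nat.le_ceil a
          gcongr
      _ ≤ _ := by exact_mod_cast h1
  have h4 : (M : ℝ) ^ ε * a = ((cl R M G).card : ℝ) := by
    rw [ha, ← mul_assoc, ← Real.rpow_add hM0, add_neg_cancel, Real.rpow_zero, one_mul]
  refine le_of_mul_le_mul_right (h3.trans (le_of_eq ?_)) ha0
  calc ((cl R M G).card : ℝ) ^ 2 = ((M : ℝ) ^ ε * a) * (cl R M G).card := by rw [h4]; ring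
    _ = _ := by ring

theorem mem_Pset {R : ℤ} {M : ℕ} (hM : 0 < M) {G : Finset (ℤ × ℤ)} {ε : ℝ} {h : ℤ × ℤ}
    (hp : (M : ℝ) ^ (-ε) * ((cl R M G).card : ℝ) ≤ ((pop R M G h).card : ℝ)) :
    res R M h ∈ Pset R M G ε := by
  have hM' : (0 : ℤ) < M := by exact_mod_cast hM
  rw [Pset, Finset.mem_filter, Finset.mem_Ico]
  refine ⟨⟨Int.emod_nonneg _ hM'.ne', Int.emod_lt_of_pos _ hM'⟩, ?_⟩
  have e : (cl R M G).filter (fun x => (x + res R M h) % M ∈ cl R M G) = pop R M G h := by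
    rw [pop]
    refine Finset.filter_congr (fun x _ => ?_)
    rw [res, Int.add_emod_emod]
  rw [e]
  exact hp

section
variable {ι : Type*} [Fintype ι] [DecidableEq ι] {R : ℤ} {M : ι → ℕ}

/-- few moduli are unpopular for a difference of the window -/
theorem nbad {G : Finset (ℤ × ℤ)} (hG : G.Nonempty) {y ε K : ℝ} (hε : 0 ≤ ε)
    (hM : ∀ b, Real.exp y ≤ M b) {h : ℤ × ℤ}
    (hp : ∏ b, ((cl R (M b) G).card : ℝ) ≤ K * ∏ b, ((pop R (M b) G h).card : ℝ)) :
    (((univ : Finset ι).filter (fun b => res R (M b) h ∉ Pset R (M b) G ε)).card : ℝ) * (ε * y)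
      ≤ Real.log K := by
  classical
  set B := (univ : Finset ι).filter (fun b => res R (M b) h ∉ Pset R (M b) G ε) with hB
  have hC0 : ∀ b, (0 : ℝ) < (cl R (M b) G).card := fun b => by
    have : 0 < (cl R (M b) G).card := Finset.card_pos.2 (hG.image _)
    exact_mod_cast this
  have hM0 : ∀ b, (0 : ℝ) < M b := fun b => (Real.exp_pos _).trans_le (hM b)
  have hM0' : ∀ b, 0 < M b := fun b => by exact_mod_cast hM0 b
  have h1 : ∏ b, ((pop R (M b) G h).card : ℝ) ≤
      Real.exp (-(B.card * (ε * y))) * ∏ b, ((cl R (M b) G).card : ℝ) := by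
    have h2 : ∀ b, ((pop R (M b) G h).card : ℝ) ≤
        (if b ∈ B then Real.exp (-(ε * y)) else 1) * ((cl R (M b) G).card : ℝ) := by
      intro b
      split_ifs with hb
      · have h3 : ¬ (M b : ℝ) ^ (-ε) * ((cl R (M b) G).card : ℝ) ≤ ((pop R (M b) G h).card : ℝ) := by
          intro h4
          exact (Finset.mem_filter.1 hb).2 (mem_Pset (hM0' b) h4)
        rw [not_le] at h3
        refine h3.le.trans ?_
        refine mul_le_mul_of_nonneg_right ?_ (hC0 b).le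
        calc (M b : ℝ) ^ (-ε) ≤ (Real.exp y) ^ (-ε) :=
              Real.rpow_le_rpow_of_nonpos (Real.exp_pos _) (hM b) (by linarith)
          _ = Real.exp (-(ε * y)) := by
              rw [← Real.exp_mul]; congr 1; ring
      · rw [one_mul]
        exact_mod_cast Finset.card_filter_le _ _
    calc ∏ b, ((pop R (M b) G h).card : ℝ)
        ≤ ∏ b, ((if b ∈ B then Real.exp (-(ε * y)) else 1) * ((cl R (M b) G).card : ℝ)) :=
          Finset.prod_le_prod (fun b _ => Nat.cast_nonneg _) (fun b _ => h2 b)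
      _ = (∏ b, (if b ∈ B then Real.exp (-(ε * y)) else 1)) * ∏ b, ((cl R (M b) G).card : ℝ) :=
          Finset.prod_mul_distrib
      _ = _ := by
          congr 1
          rw [Finset.prod_ite_mem, Finset.univ_inter, Finset.prod_const, ← Real.exp_nat_mul]
          congr 1
          ring
  have hP : 0 < ∏ b, ((cl R (M b) G).card : ℝ) := Finset.prod_pos (fun b _ => hC0 b)
  have hK0 : 0 < K := by
    by_contra hK
    rw [not_lt] at hK
    have h2 : K * ∏ b, ((pop R (M b) G h).card : ℝ) ≤ 0 :=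
      mul_nonpos_of_nonpos_of_nonneg hK (Finset.prod_nonneg (fun b _ => Nat.cast_nonneg _))
    linarith
  have h2 : 1 ≤ K * Real.exp (-(B.card * (ε * y))) := by
    refine le_of_mul_le_mul_right ?_ hP
    calc 1 * ∏ b, ((cl R (M b) G).card : ℝ) ≤ K * ∏ b, ((pop R (M b) G h).card : ℝ) := by
          rw [one_mul]; exact hp
      _ ≤ K * (Real.exp (-(B.card * (ε * y))) * ∏ b, ((cl R (M b) G).card : ℝ)) := by gcongr
      _ = _ := by ring
  have h3 : Real.exp (B.card * (ε * y)) ≤ K := by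
    rw [Real.exp_neg] at h2
    have h4 := Real.exp_pos (B.card * (ε * y))
    rw [← div_eq_mul_inv, le_div_iff₀ h4, one_mul] at h2
    exact h2
  rw [Real.le_log_iff_exp_le hK0]
  exact h3

/-- **POP**: if the classes of a long path modulo `∏ M b` are almost a product, there are sets of
at most `M ^ (1 - c + ε)` popular classes and a window of the path of diameter about `X` all of
whose differences are popular for most moduli. -/
theorem popwin {D N X : ℕ} {g : ℕ → ℤ × ℤ} (hD : 1 ≤ D)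
    (hcop : Pairwise (fun b b' => Nat.Coprime (M b) (M b')))
    (hR : ∀ b, (M b : ℤ) ∣ R ^ 2 + 1)
    (hstep : ∀ i, i + 1 < N → sd (g (i + 1) - g i) ≤ D)
    (hinj : ∀ i < N, ∀ j < N, g i = g j → i = j) (hN : ∏ b, M b ≤ N) {y ε c K L : ℝ}
    (hε : 0 ≤ ε) (hM : ∀ b, Real.exp y ≤ M b)
    (hthin : ∀ b, ((cl R (M b) ((range N).image g)).card : ℝ) ≤ (M b : ℝ) ^ (1 - c))
    (hL0 : 0 ≤ L)
    (hL : ∏ b, ((cl R (M b) ((range N).image g)).card : ℝ) ≤
      L * (cl R (∏ b, M b) ((range N).image g)).card)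
    (hK : 2 * (4 * ((X : ℝ) + D) + 1) ^ 4 * L ≤ K) (hK0 : 0 < K)
    (hX : (100 * D * (2 * X + 1) ^ 2) ^ 2 ≤ ∏ b, M b) :
    ∃ P : ι → Finset ℤ, (∀ b, ((P b).card : ℝ) ≤ (M b : ℝ) ^ (1 - c + ε)) ∧
    ∃ t0 t1, t0 ≤ t1 ∧ t1 < N ∧ (X : ℤ) < sd (g t1 - g t0) ∧
      (∀ t, t0 ≤ t → t ≤ t1 → sd (g t - g t0) ≤ X + D) ∧
      ∀ t t', t0 ≤ t → t ≤ t1 → t0 ≤ t' → t' ≤ t1 →
        (((univ : Finset ι).filter (fun b => res R (M b) (g t' - g t) ∉ P b)).card : ℝ) * (ε * y)
          ≤ Real.log K := by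
  obtain ⟨t0, t1, h01, h1N, hX1, hin, hall⟩ :=
    window hD hcop hR hstep hinj hN hL0 hL hK hK0 hX
  have hG : ((range N).image g).Nonempty :=
    ⟨g 0, Finset.mem_image_of_mem _ (Finset.mem_range.2 (by omega))⟩
  refine ⟨fun b => Pset R (M b) ((range N).image g) ε, fun b => ?_, t0, t1, h01, h1N, hX1, hin,
    fun t t' a1 a2 a3 a4 => nbad hG hε hM (hall t t' a1 a2 a3 a4)⟩
  have hMb : (0 : ℝ) < M b := (Real.exp_pos _).trans_le (hM b)
  have hMb' : 0 < M b := by exact_mod_cast hMb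
  refine (card_Pset hMb' _ hG ε).trans ?_
  calc (M b : ℝ) ^ ε * ((cl R (M b) ((range N).image g)).card : ℝ)
      ≤ (M b : ℝ) ^ ε * (M b : ℝ) ^ (1 - c) := by
        have := hthin b
        gcongr
    _ = _ := by rw [← Real.rpow_add hMb]; congr 1; ring

end

end Vale.Agent.P015.H886
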