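import Vale.Agent.P015.H886.SS
import Vale.Agent.P015.H606.ShortVec

/-! TWOGRP: two groups of moduli give two short parallel vectors. -/

namespace Vale.Agent.P015.H886.TG

open Finset
open Vale.Agent.P015.H518 (cr nm)

theorem path_len {g : ℕ → ℤ × ℤ} {D t0 t1 : ℕ}
    (hstep : ∀ t, t0 ≤ t → t < t1 → sd (g (t + 1) - g t) ≤ D) :
    ∀ k : ℕ, t0 + k ≤ t1 → sd (g (t0 + k) - g t0) ≤ D * k := by
  intro k
  induction k with
  | zero => intro _; simp [sd]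
  | succ k ih =>
    intro hk
    have h1 := ih (by omega)
    have h2 := hstep (t0 + k) (by omega) (by omega)
    have h3 := sd_sub_le (g (t0 + (k + 1))) (g (t0 + k)) (g t0)
    have e : t0 + (k + 1) = t0 + k + 1 := by ring
    rw [e] at h3 ⊢
    push_cast
    linarith

/-- two groups which are good for half of the times -/
theorem two_good {G : ℕ} (hG : 2 ≤ G) {T : Finset ℕ} (hT : T.Nonempty) (good : ℕ → Fin G → Prop)
    [∀ t i, Decidable (good t i)]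
    (h : ∀ t ∈ T, 8 * ((univ : Finset (Fin G)).filter (fun i => ¬ good t i)).card ≤ G) :
    ∃ i₁ i₂, i₁ ≠ i₂ ∧ T.card ≤ 2 * (T.filter (fun t => good t i₁)).card ∧
      T.card ≤ 2 * (T.filter (fun t => good t i₂)).card := by
  by_contra hcon
  push Not at hcon
  set A : Finset (Fin G) := univ.filter (fun i => T.card ≤ 2 * (T.filter (fun t => good t i)).card)
    with hA
  have hA1 : A.card ≤ 1 := by
    rw [Finset.card_le_one]
    intro i hi j hj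
    by_contra hij
    have h1 := hcon i j hij (Finset.mem_filter.1 hi).2
    have h2 := (Finset.mem_filter.1 hj).2
    omega
  have h1 : ∑ i, (T.filter (fun t => good t i)).card
      = ∑ t ∈ T, ((univ : Finset (Fin G)).filter (fun i => good t i)).card := by
    simp only [Finset.card_filter]
    exact Finset.sum_comm
  have h2 : T.card * (7 * G) ≤ 8 * ∑ i, (T.filter (fun t => good t i)).card := by
    rw [h1, Finset.mul_sum, ← smul_eq_mul]
    refine Finset.card_nsmul_le_sum _ _ _ (fun t ht => ?_)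
    have h3 := h t ht
    have h4 := Finset.card_filter_add_card_filter_not (s := (univ : Finset (Fin G)))
      (fun i => good t i)
    rw [Finset.card_univ, Fintype.card_fin] at h4
    omega
  have h3 : 2 * ∑ i, (T.filter (fun t => good t i)).card ≤ (G + 1) * T.card := by
    rw [Finset.mul_sum]
    have h4 : ∀ i ∈ (univ : Finset (Fin G)), 2 * (T.filter (fun t => good t i)).card ≤
        T.card + (if i ∈ A then T.card else 0) := by
      intro i _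
      have h5 : (T.filter (fun t => good t i)).card ≤ T.card := Finset.card_filter_le _ _
      split_ifs with hi
      · omega
      · rw [hA, Finset.mem_filter] at hi
        push Not at hi
        have := hi (Finset.mem_univ i)
        omega
    refine (Finset.sum_le_sum h4).trans ?_
    rw [Finset.sum_add_distrib, Finset.sum_ite_mem, Finset.univ_inter, Finset.sum_const,
      Finset.sum_const, Finset.card_univ, Fintype.card_fin, smul_eq_mul, smul_eq_mul, add_mul]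
    exact Nat.add_le_add_left (Nat.mul_le_mul_right _ hA1) _
  have hT0 : 0 < T.card := Finset.card_pos.2 hT
  have h4 : T.card * (7 * G) ≤ T.card * (4 * (G + 1)) := by nlinarith
  have h5 := Nat.le_of_mul_le_mul_left h4 hT0
  omega

/-- pigeonhole -/
theorem fibre {α β : Type*} [DecidableEq β] {T : Finset α} {B : Finset β} (hT : T.Nonempty)
    (f : α → β) (hf : ∀ t ∈ T, f t ∈ B) {κ : ℝ} (hB : (B.card : ℝ) ≤ κ) :
    ∃ b ∈ B, (T.card : ℝ) ≤ κ * ((T.filter (fun t => f t = b)).card : ℝ) := by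
  by_contra hcon
  push Not at hcon
  have h1 : (T.card : ℝ) = ∑ b ∈ B, ((T.filter (fun t => f t = b)).card : ℝ) := by
    rw [← Nat.cast_sum, Finset.card_eq_sum_card_fiberwise hf]
  obtain ⟨t, ht⟩ := hT
  have hBne : B.Nonempty := ⟨_, hf t ht⟩
  have h2 : κ * (T.card : ℝ) < B.card * T.card := by
    calc κ * (T.card : ℝ) = ∑ b ∈ B, κ * ((T.filter (fun t => f t = b)).card : ℝ) := by
          rw [h1, Finset.mul_sum]
      _ < ∑ b ∈ B, (T.card : ℝ) := Finset.sum_lt_sum_of_nonempty hBne hcon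
      _ = _ := by rw [Finset.sum_const, nsmul_eq_mul]
  have h3 : (B.card : ℝ) * T.card ≤ κ * T.card := by gcongr
  linarith

theorem dd_bound {e h : ℤ × ℤ} {X D : ℕ} (hDX : D ≤ X) (hh : sd h ≤ 2 * (X + D)) :
    |(H721.dd e h : ℝ)| ≤ 6 * X * √(H721.nm e : ℝ) := by
  have h1 : H721.nm h ≤ 2 * (2 * ((X : ℤ) + D)) ^ 2 := nm_le_of_sd hh
  have hX0 : (0 : ℝ) ≤ X := Nat.cast_nonneg _
  have hD0 : (0 : ℝ) ≤ D := Nat.cast_nonneg _
  have h2 : ((H721.nm h : ℤ) : ℝ) ≤ (6 * X) ^ 2 := by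
    have h3 : ((H721.nm h : ℤ) : ℝ) ≤ 2 * (2 * ((X : ℝ) + D)) ^ 2 := by exact_mod_cast h1
    have h4 : (D : ℝ) ≤ X := by exact_mod_cast hDX
    nlinarith
  have h4 : (H721.dd e h : ℝ) ^ 2 ≤ (H721.nm e : ℝ) * (H721.nm h : ℝ) := by
    have h5 : (H721.dd e h) ^ 2 ≤ (H721.nm e) * (H721.nm h) := by
      rw [← H721.dd_cr]
      linarith [sq_nonneg (H721.cr e h)]
    exact_mod_cast h5
  have hne : (0 : ℝ) ≤ (H721.nm e : ℝ) := by exact_mod_cast H721.nm_nonneg e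
  have h6 : (6 * (X : ℝ)) * √(H721.nm e : ℝ) = √((6 * X) ^ 2 * (H721.nm e : ℝ)) := by
    rw [Real.sqrt_mul (by positivity), Real.sqrt_sq (by positivity)]
  rw [h6, ← Real.sqrt_sq_eq_abs]
  apply Real.sqrt_le_sqrt
  refine h4.trans ?_
  rw [mul_comm]
  gcongr

theorem cr_bound {e h : ℤ × ℤ} {y : ℝ}
    (hh : ((H721.cr e h : ℤ) : ℝ) ^ 2 ≤ Real.exp (2 * y) * (H721.nm e : ℤ)) :
    |(H721.cr e h : ℝ)| ≤ Real.exp y * √(H721.nm e : ℝ) := by
  have h6 : Real.exp y * √(H721.nm e : ℝ) = √(Real.exp (2 * y) * (H721.nm e : ℝ)) := by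
    have : Real.exp (2 * y) = (Real.exp y) ^ 2 := by rw [← Real.exp_nat_mul]; norm_num
    rw [this, Real.sqrt_mul (by positivity), Real.sqrt_sq (Real.exp_pos _).le]
  rw [h6, ← Real.sqrt_sq_eq_abs]
  exact Real.sqrt_le_sqrt hh

theorem nums {Q κ y c₃ D X S : ℝ} {s : ℕ} (hs : 1 ≤ s) (hκ : κ = Q ^ (1 - c₃)) (hc0 : 0 ≤ c₃)
    (hcs : 2 ≤ c₃ * s) (hQlo : Real.exp (s * y) ≤ Q) (hQhi : Q ≤ Real.exp (s * (2 * y)))
    (hD : 1 ≤ D) (hy1 : 192 * D ≤ Real.exp y) (hX1 : 768 * D ^ 2 * Real.exp ((4 * s + 1) * y) < X)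
    (hXS : X ≤ 2 * D * κ * S) : 0 ≤ y ∧ 0 < κ ∧ κ ≤ Q ∧ 192 * D * Real.exp y * κ ≤ Q ∧
      Real.exp (2 * y) ≤ Q ^ c₃ ∧ Q = κ * Q ^ c₃ ∧ 1 < S := by
  have hy0 : 0 ≤ y := by
    have h1 : (1 : ℝ) ≤ Real.exp y := by linarith
    exact Real.one_le_exp_iff.1 h1
  have hs1 : (1 : ℝ) ≤ s := by exact_mod_cast hs
  have hQ1 : (1 : ℝ) ≤ Q := by
    refine le_trans ?_ hQlo
    exact Real.one_le_exp (by positivity)
  have hQr : 0 < Q := by linarith
  have hκ0 : 0 < κ := by rw [hκ]; positivity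
  have hκQ : κ ≤ Q := by
    rw [hκ]
    calc Q ^ (1 - c₃) ≤ Q ^ (1 : ℝ) :=
          Real.rpow_le_rpow_of_exponent_le hQ1 (by linarith)
      _ = Q := Real.rpow_one _
  have hQc : Real.exp (2 * y) ≤ Q ^ c₃ := by
    calc Real.exp (2 * y) ≤ Real.exp (s * y * c₃) := by
          rw [Real.exp_le_exp]
          have : 2 * y ≤ (c₃ * s) * y := by gcongr
          linarith
      _ = (Real.exp (s * y)) ^ c₃ := by rw [← Real.exp_mul]
      _ ≤ _ := Real.rpow_le_rpow (Real.exp_pos _).le hQlo hc0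
  have hQκ : Q = κ * Q ^ c₃ := by
    rw [hκ, ← Real.rpow_add hQr, sub_add_cancel, Real.rpow_one]
  refine ⟨hy0, hκ0, hκQ, ?_, hQc, hQκ, ?_⟩
  · calc 192 * D * Real.exp y * κ ≤ Real.exp y * Real.exp y * κ := by gcongr
      _ = κ * Real.exp (2 * y) := by rw [← Real.exp_add]; ring_nf
      _ ≤ κ * Q ^ c₃ := by gcongr
      _ = Q := hQκ.symm
  · by_contra h
    rw [not_lt] at h
    have h3 : κ ≤ Real.exp ((4 * s + 1) * y) := by
      refine (hκQ.trans hQhi).trans ?_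
      rw [Real.exp_le_exp]
      nlinarith
    have h0 : 0 ≤ 2 * D * κ := by positivity
    have h2 : 2 * D * κ * S ≤ 2 * D * κ := by
      calc 2 * D * κ * S ≤ 2 * D * κ * 1 := mul_le_mul_of_nonneg_left h h0
        _ = _ := mul_one _
    have h5 : 2 * D * κ ≤ 2 * D * Real.exp ((4 * s + 1) * y) :=
      mul_le_mul_of_nonneg_left h3 (by positivity)
    have h6 : 2 * D ≤ 768 * D ^ 2 := by nlinarith
    have h7 : 2 * D * Real.exp ((4 * s + 1) * y) ≤ 768 * D ^ 2 * Real.exp ((4 * s + 1) * y) :=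
      mul_le_mul_of_nonneg_right h6 (Real.exp_pos _).le
    linarith

/-- a group of moduli which is good for half of the times gives a short vector -/
theorem one_group {s D X : ℕ} {M : Fin s → ℕ} {R : ℤ} {y c₃ : ℝ} {g : ℕ → ℤ × ℤ} {t0 t1 : ℕ}
    {P : Fin s → Finset ℤ} (hs : 1 ≤ s)
    (hcop : Pairwise fun b b' => Nat.Coprime (M b) (M b')) (hlo : ∀ b, Real.exp y ≤ M b)
    (hhi : ∀ b, (M b : ℝ) ≤ Real.exp (2 * y)) (hD : 1 ≤ D) (hDX : D ≤ X)
    (hinj : ∀ t t', t0 ≤ t → t ≤ t1 → t0 ≤ t' → t' ≤ t1 → g t = g t' → t = t')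
    (hin : ∀ t, t0 ≤ t → t ≤ t1 → sd (g t - g t0) ≤ X + D)
    (hP : ∀ b, ((P b).card : ℝ) ≤ (M b : ℝ) ^ (1 - c₃))
    (hstrip : ∀ t t', t0 ≤ t → t ≤ t1 → t0 ≤ t' → t' ≤ t1 →
      ((cr (g t1 - g t0) (g t' - g t) : ℤ) : ℝ) ^ 2 ≤ Real.exp (2 * y) * (nm (g t1 - g t0) : ℤ))
    (he : g t1 - g t0 ≠ 0)
    (hcs : 2 ≤ c₃ * s) (hc0 : 0 ≤ c₃) (hy1 : 192 * (D : ℝ) ≤ Real.exp y)
    (hX1 : 768 * (D : ℝ) ^ 2 * Real.exp ((4 * s + 1) * y) < X)
    (hlen : (X : ℝ) ≤ D * (Icc t0 t1).card)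
    (hT : (Icc t0 t1).card ≤ 2 * ((Icc t0 t1).filter
      (fun t => ∀ j, res R (M j) (g t - g t0) ∈ P j)).card) :
    ∃ v : ℤ × ℤ, v ≠ 0 ∧ (((∏ j, M j : ℕ)) : ℤ) ∣ v.1 + R * v.2 ∧
      |(H721.dd (g t1 - g t0) v : ℝ)| ≤
        48 * D * ((∏ j, M j : ℕ) : ℝ) ^ (1 - c₃) * √(H721.nm (g t1 - g t0) : ℝ) ∧
      |(H721.cr (g t1 - g t0) v : ℝ)| ≤
        8 * D * Real.exp y * ((∏ j, M j : ℕ) : ℝ) ^ (1 - c₃) / X *
          √(H721.nm (g t1 - g t0) : ℝ) := by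
  classical
  have hM0 : ∀ b, (0 : ℝ) < M b := fun b => (Real.exp_pos _).trans_le (hlo b)
  have hM0' : ∀ b, 0 < M b := fun b => by exact_mod_cast hM0 b
  obtain ⟨Q, hQ⟩ : ∃ Q : ℕ, Q = ∏ j, M j := ⟨_, rfl⟩
  rw [← hQ]
  have hQ0 : 0 < Q := by rw [hQ]; exact Finset.prod_pos (fun b _ => hM0' b)
  have hQr : (0 : ℝ) < Q := by exact_mod_cast hQ0
  have hQprod : (Q : ℝ) = ∏ j, (M j : ℝ) := by rw [hQ]; push_cast; rfl
  obtain ⟨κ, hκ⟩ : ∃ κ : ℝ, κ = (Q : ℝ) ^ (1 - c₃) := ⟨_, rfl⟩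
  rw [← hκ]
  have hκ0 : 0 < κ := by rw [hκ]; positivity
  set T := (Icc t0 t1).filter (fun t => ∀ j, res R (M j) (g t - g t0) ∈ P j) with hTdef
  have hD0 : (1 : ℝ) ≤ D := by exact_mod_cast hD
  have hX0 : (0 : ℝ) < X := lt_of_le_of_lt (by positivity) hX1
  have hTr : (X : ℝ) ≤ 2 * D * T.card := by
    have : ((Icc t0 t1).card : ℝ) ≤ 2 * T.card := by exact_mod_cast hT
    calc (X : ℝ) ≤ D * (Icc t0 t1).card := hlen
      _ ≤ D * (2 * T.card) := by gcongr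
      _ = _ := by ring
  have hTne : T.Nonempty := by
    rw [← Finset.card_pos]
    by_contra h
    have h0 : T.card = 0 := by omega
    rw [h0] at hTr
    simp only [Nat.cast_zero, mul_zero] at hTr
    linarith
  -- pigeonhole
  have hBc : (((Fintype.piFinset P).card : ℕ) : ℝ) ≤ κ := by
    rw [Fintype.card_piFinset, Nat.cast_prod, hκ, hQprod, ← Real.finsetProd_rpow _ _
      (fun b _ => (hM0 b).le)]
    exact Finset.prod_le_prod (fun _ _ => Nat.cast_nonneg _) (fun b _ => hP b)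
  obtain ⟨b, _, hfib⟩ := fibre (B := Fintype.piFinset P) hTne
    (fun t => fun j => res R (M j) (g t - g t0))
    (fun t ht => Fintype.mem_piFinset.2 (Finset.mem_filter.1 ht).2) hBc
  set F := T.filter (fun t => (fun j => res R (M j) (g t - g t0)) = b) with hF
  have hFmem : ∀ t ∈ F, t0 ≤ t ∧ t ≤ t1 ∧ ∀ j, res R (M j) (g t - g t0) = b j := by
    intro t ht
    rw [hF, Finset.mem_filter, hTdef, Finset.mem_filter, Finset.mem_Icc] at ht
    exact ⟨ht.1.1.1, ht.1.1.2, fun j => congrFun ht.2 j⟩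
  set S := F.image g with hS
  have hScard : S.card = F.card := by
    rw [hS]
    apply Finset.card_image_of_injOn
    intro t ht t' ht' h
    have h1 := hFmem t (Finset.mem_coe.1 ht)
    have h2 := hFmem t' (Finset.mem_coe.1 ht')
    exact hinj t t' h1.1 h1.2.1 h2.1 h2.2.1 h
  have hXS : (X : ℝ) ≤ 2 * D * κ * S.card := by
    rw [hScard]
    calc (X : ℝ) ≤ 2 * D * T.card := hTr
      _ ≤ 2 * D * (κ * F.card) := by gcongr
      _ = _ := by ring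
  -- sizes
  have hQlo : Real.exp (s * y) ≤ Q := by
    rw [hQprod, Real.exp_nat_mul]
    calc (Real.exp y) ^ s = ∏ _j : Fin s, Real.exp y := by
          rw [Finset.prod_const, Finset.card_univ, Fintype.card_fin]
      _ ≤ _ := Finset.prod_le_prod (fun _ _ => (Real.exp_pos _).le) (fun j _ => hlo j)
  have hQhi : (Q : ℝ) ≤ Real.exp (s * (2 * y)) := by
    rw [hQprod, Real.exp_nat_mul]
    calc ∏ j, (M j : ℝ) ≤ ∏ _j : Fin s, Real.exp (2 * y) :=
          Finset.prod_le_prod (fun j _ => (hM0 j).le) (fun j _ => hhi j)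
      _ = _ := by rw [Finset.prod_const, Finset.card_univ, Fintype.card_fin]
  obtain ⟨hy0, _, hκQ, hbig, hQc, hQκ, hSone⟩ := nums hs hκ hc0 hcs hQlo hQhi hD0 hy1 hX1 hXS
  have hS0 : (0 : ℝ) < S.card := by
    by_contra h
    have h0 : (S.card : ℝ) = 0 := le_antisymm (not_lt.1 h) (Nat.cast_nonneg _)
    rw [h0, mul_zero] at hXS
    linarith
  have hS2 : 2 ≤ S.card := by exact_mod_cast hSone
  -- the rectangle
  have hne : (0 : ℝ) < (H721.nm (g t1 - g t0) : ℝ) := by exact_mod_cast H721.nm_pos he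
  have hdiff : ∀ t ∈ F, ∀ t' ∈ F, sd (g t - g t') ≤ 2 * (X + D) := by
    intro t ht t' ht'
    have h1 := hFmem t ht
    have h2 := hFmem t' ht'
    have h3 := sd_sub_le (g t) (g t0) (g t')
    rw [sd_sub_comm (g t0)] at h3
    linarith [hin t h1.1 h1.2.1, hin t' h2.1 h2.2.1]
  have hA : (0 : ℝ) < 6 * X := by positivity
  obtain ⟨v, hv0, hvQ, hv1, hv2⟩ := H606.shortvec (R := R) hQ0 he hA (Real.exp_pos y) S
    (by
      intro z hz z' hz'
      obtain ⟨t, ht, rfl⟩ := Finset.mem_image.1 hz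
      obtain ⟨t', ht', rfl⟩ := Finset.mem_image.1 hz'
      rw [hQ]
      refine prod_dvd hcop (fun j => ?_)
      have h1 := (hFmem t ht).2.2 j
      have h2 := (hFmem t' ht').2.2 j
      have h3 := res_eq (h1.trans h2.symm)
      have h4 : g t - g t0 - (g t' - g t0) = g t - g t' := by abel
      rw [h4] at h3
      exact h3)
    (by
      intro z hz z' hz'
      obtain ⟨t, ht, rfl⟩ := Finset.mem_image.1 hz
      obtain ⟨t', ht', rfl⟩ := Finset.mem_image.1 hz'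
      exact dd_bound hDX (hdiff t ht t' ht'))
    (by
      intro z hz z' hz'
      obtain ⟨t, ht, rfl⟩ := Finset.mem_image.1 hz
      obtain ⟨t', ht', rfl⟩ := Finset.mem_image.1 hz'
      have h1 := hFmem t ht
      have h2 := hFmem t' ht'
      exact cr_bound (hstrip t' t h2.1 h2.2.1 h1.1 h1.2.1))
    hS2
    (by
      calc 16 * (6 * (X : ℝ)) * Real.exp y = 96 * Real.exp y * X := by ring
        _ ≤ 96 * Real.exp y * (2 * D * κ * S.card) :=
            mul_le_mul_of_nonneg_left hXS (mul_nonneg (by norm_num) (Real.exp_pos y).le)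
        _ = S.card * (192 * D * Real.exp y * κ) := by ring
        _ ≤ S.card * Q := mul_le_mul_of_nonneg_left hbig hS0.le)
  refine ⟨v, hv0, hvQ, hv1.trans ?_, hv2.trans ?_⟩
  · refine mul_le_mul_of_nonneg_right ?_ (Real.sqrt_nonneg _)
    rw [div_le_iff₀ hS0]
    linarith
  · refine mul_le_mul_of_nonneg_right ?_ (Real.sqrt_nonneg _)
    rw [div_le_div_iff₀ hS0 hX0]
    have h5 : 4 * Real.exp y * (X : ℝ) ≤ 4 * Real.exp y * (2 * D * κ * S.card) :=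
      mul_le_mul_of_nonneg_left hXS (mul_nonneg (by norm_num) (Real.exp_pos y).le)
    linarith

/-- numbers of the end -/
theorem nums2 {Q₁ Q₂ κ₁ κ₂ D c₃ y : ℝ} (h1 : Q₁ = κ₁ * Q₁ ^ c₃) (h2 : Q₂ = κ₂ * Q₂ ^ c₃)
    (hκ₁ : 0 < κ₁) (hκ₂ : 0 < κ₂) (q1 : Real.exp (2 * y) ≤ Q₁ ^ c₃)
    (q2 : Real.exp (2 * y) ≤ Q₂ ^ c₃) (hy2 : 2401 * D ^ 2 < Real.exp (4 * y))
    (h : Q₁ * Q₂ ≤ 2401 * D ^ 2 * (κ₁ * κ₂)) : False := by
  have h3 : Real.exp (4 * y) ≤ Q₁ ^ c₃ * Q₂ ^ c₃ := by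
    calc Real.exp (4 * y) = Real.exp (2 * y) * Real.exp (2 * y) := by
          rw [← Real.exp_add]; congr 1; ring
      _ ≤ _ := mul_le_mul q1 q2 (Real.exp_pos _).le ((Real.exp_pos _).le.trans q1)
  have h4 : Q₁ * Q₂ = (κ₁ * κ₂) * (Q₁ ^ c₃ * Q₂ ^ c₃) := by
    rw [show (κ₁ * κ₂) * (Q₁ ^ c₃ * Q₂ ^ c₃) = (κ₁ * Q₁ ^ c₃) * (κ₂ * Q₂ ^ c₃) by ring, ← h1, ← h2]
  have h5 : 0 < κ₁ * κ₂ := mul_pos hκ₁ hκ₂
  have h6 : (κ₁ * κ₂) * (Q₁ ^ c₃ * Q₂ ^ c₃) ≤ (κ₁ * κ₂) * (2401 * D ^ 2) := by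
    rw [← h4]; linarith
  have h7 := le_of_mul_le_mul_left h6 h5
  linarith

/-- size of a vector from its two components -/
theorem size_bound {e v : ℤ × ℤ} (he : e ≠ 0) {D κ y X : ℝ} (hD : 0 ≤ D) (hκ : 0 ≤ κ)
    (hX : 0 < X) (h8 : 8 * Real.exp y ≤ X)
    (h1 : |(H721.dd e v : ℝ)| ≤ 48 * D * κ * √(H721.nm e : ℝ))
    (h2 : |(H721.cr e v : ℝ)| ≤ 8 * D * Real.exp y * κ / X * √(H721.nm e : ℝ)) :
    ((H721.nm v : ℤ) : ℝ) ≤ (49 * D * κ) ^ 2 := by
  have hne : (0 : ℝ) < (H721.nm e : ℝ) := by exact_mod_cast H721.nm_pos he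
  have hs := Real.sq_sqrt hne.le
  have h3 : |(H721.cr e v : ℝ)| ≤ D * κ * √(H721.nm e : ℝ) := by
    refine h2.trans (mul_le_mul_of_nonneg_right ?_ (Real.sqrt_nonneg _))
    rw [div_le_iff₀ hX]
    have : (D * κ) * (8 * Real.exp y) ≤ (D * κ) * X := mul_le_mul_of_nonneg_left h8 (by positivity)
    linarith
  have h4 : (H721.dd e v : ℝ) ^ 2 ≤ (48 * D * κ) ^ 2 * (H721.nm e : ℝ) := by
    rw [← hs, ← mul_pow, ← sq_abs (H721.dd e v : ℝ)]
    exact pow_le_pow_left₀ (abs_nonneg _) h1 2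
  have h5 : (H721.cr e v : ℝ) ^ 2 ≤ (D * κ) ^ 2 * (H721.nm e : ℝ) := by
    rw [← hs, ← mul_pow, ← sq_abs (H721.cr e v : ℝ)]
    exact pow_le_pow_left₀ (abs_nonneg _) h3 2
  have h6 : (H721.dd e v : ℝ) ^ 2 + (H721.cr e v : ℝ) ^ 2 = (H721.nm e : ℝ) * (H721.nm v : ℝ) := by
    exact_mod_cast H721.dd_cr e v
  have h7 : (H721.nm e : ℝ) * (H721.nm v : ℝ) ≤ (H721.nm e : ℝ) * (49 * D * κ) ^ 2 := by
    rw [← h6]
    have h8 : 0 ≤ (D * κ) ^ 2 * (H721.nm e : ℝ) := by positivity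
    nlinarith
  exact le_of_mul_le_mul_left h7 hne

/-- two short vectors are parallel -/
theorem cross_zero {e v w : ℤ × ℤ} (he : e ≠ 0) {D κ₁ κ₂ y X : ℝ} (hD : 0 ≤ D) (hκ₁ : 0 ≤ κ₁)
    (hκ₂ : 0 ≤ κ₂) (hX : 0 < X)
    (h1 : |(H721.dd e v : ℝ)| ≤ 48 * D * κ₁ * √(H721.nm e : ℝ))
    (h2 : |(H721.cr e v : ℝ)| ≤ 8 * D * Real.exp y * κ₁ / X * √(H721.nm e : ℝ))
    (h3 : |(H721.dd e w : ℝ)| ≤ 48 * D * κ₂ * √(H721.nm e : ℝ))
    (h4 : |(H721.cr e w : ℝ)| ≤ 8 * D * Real.exp y * κ₂ / X * √(H721.nm e : ℝ))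
    (hlt : 768 * D ^ 2 * Real.exp y * (κ₁ * κ₂) < X) : H721.cr v w = 0 := by
  have hne : (0 : ℝ) < (H721.nm e : ℝ) := by exact_mod_cast H721.nm_pos he
  have hs := Real.sq_sqrt hne.le
  have hsq := Real.sqrt_nonneg (H721.nm e : ℝ)
  have hE := (Real.exp_pos y).le
  have h5 : (H721.nm e : ℝ) * (H721.cr v w : ℝ) =
      H721.dd e v * H721.cr e w - H721.cr e v * H721.dd e w := by
    have : H721.nm e * H721.cr v w = H721.dd e v * H721.cr e w - H721.cr e v * H721.dd e w := by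
      simp only [H721.nm, H721.cr, H721.dd]; ring
    exact_mod_cast this
  have h6 : (H721.nm e : ℝ) * |(H721.cr v w : ℝ)| ≤
      (H721.nm e : ℝ) * (768 * D ^ 2 * Real.exp y * (κ₁ * κ₂) / X) := by
    calc (H721.nm e : ℝ) * |(H721.cr v w : ℝ)| = |(H721.nm e : ℝ) * (H721.cr v w : ℝ)| := by
          rw [abs_mul, abs_of_pos hne]
      _ ≤ |(H721.dd e v : ℝ) * H721.cr e w| + |(H721.cr e v : ℝ) * H721.dd e w| := by
          rw [h5]; exact abs_sub _ _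
      _ = |(H721.dd e v : ℝ)| * |(H721.cr e w : ℝ)| + |(H721.cr e v : ℝ)| * |(H721.dd e w : ℝ)| := by
          rw [abs_mul, abs_mul]
      _ ≤ (48 * D * κ₁ * √(H721.nm e : ℝ)) * (8 * D * Real.exp y * κ₂ / X * √(H721.nm e : ℝ)) +
          (8 * D * Real.exp y * κ₁ / X * √(H721.nm e : ℝ)) * (48 * D * κ₂ * √(H721.nm e : ℝ)) :=
          add_le_add (mul_le_mul h1 h4 (abs_nonneg _) (by positivity))
            (mul_le_mul h2 h3 (abs_nonneg _) (by positivity))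
      _ = (√(H721.nm e : ℝ)) ^ 2 * (768 * D ^ 2 * Real.exp y * (κ₁ * κ₂) / X) := by ring
      _ = _ := by rw [hs]
  have h7 := le_of_mul_le_mul_left h6 hne
  have h8 : |(H721.cr v w : ℝ)| < 1 := by
    refine lt_of_le_of_lt h7 ?_
    rw [div_lt_one hX]; exact hlt
  have h9 : |H721.cr v w| < 1 := by exact_mod_cast h8
  exact Int.abs_lt_one_iff.1 h9

/-- **TWOGRP** -/
theorem twoGrp : TwoGrp := by
  classical
  intro G s D X M R y c₃ g t0 t1 P hG hs hcop hR hlo hhi hD hDX h01 hinj hstep hX hin hP hpop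
    hstrip hcs hy1 hX1 hy2
  have hD0 : (1 : ℝ) ≤ D := by exact_mod_cast hD
  have hX0 : (0 : ℝ) < X := lt_of_le_of_lt (by positivity) hX1
  have he : g t1 - g t0 ≠ 0 := by
    intro h
    rw [h] at hX
    simp [sd] at hX
    omega
  have hs0 : (0 : ℝ) < s := by exact_mod_cast hs
  have hc0 : 0 ≤ c₃ := by
    by_contra h
    rw [not_le] at h
    have := mul_neg_of_neg_of_pos h hs0
    linarith
  have hlen : (X : ℝ) ≤ D * (Icc t0 t1).card := by
    have h1 := path_len hstep (t1 - t0) (by omega)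
    rw [Nat.add_sub_cancel' h01] at h1
    have h2 : (X : ℤ) ≤ D * ((t1 - t0 : ℕ) : ℤ) := by linarith
    have h3 : (X : ℝ) ≤ D * ((t1 - t0 : ℕ) : ℝ) := by exact_mod_cast h2
    refine h3.trans ?_
    rw [Nat.card_Icc]
    have : ((t1 - t0 : ℕ) : ℝ) ≤ ((t1 + 1 - t0 : ℕ) : ℝ) := by
      exact_mod_cast (by omega : t1 - t0 ≤ t1 + 1 - t0)
    gcongr
  obtain ⟨i₁, i₂, h12, hg1, hg2⟩ := two_good hG (T := Icc t0 t1) ⟨t0, Finset.mem_Icc.2 ⟨le_rfl, h01⟩⟩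
    (fun t i => ∀ j, res R (M (i, j)) (g t - g t0) ∈ P (i, j)) (by
      intro t ht
      rw [Finset.mem_Icc] at ht
      refine le_trans (Nat.mul_le_mul_left _ ?_) (hpop t0 t le_rfl h01 ht.1 ht.2)
      have h1 : (univ : Finset (Fin G)).filter
          (fun i => ¬ ∀ j, res R (M (i, j)) (g t - g t0) ∈ P (i, j)) ⊆
          ((univ : Finset (Fin G × Fin s)).filter
            (fun b => res R (M b) (g t - g t0) ∉ P b)).image Prod.fst := by
        intro i hi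
        rw [Finset.mem_filter] at hi
        have h2 := hi.2
        push Not at h2
        obtain ⟨j, hj⟩ := h2
        exact Finset.mem_image.2 ⟨(i, j), Finset.mem_filter.2 ⟨Finset.mem_univ _, hj⟩, rfl⟩
      exact (Finset.card_le_card h1).trans Finset.card_image_le)
  have hgrp : ∀ i, (Icc t0 t1).card ≤ 2 * ((Icc t0 t1).filter
      (fun t => ∀ j, res R (M (i, j)) (g t - g t0) ∈ P (i, j))).card → _ := fun i hi =>
    one_group (M := fun j => M (i, j)) (P := fun j => P (i, j)) hs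
      (fun j j' hj => hcop (fun h => hj (Prod.mk.inj h).2)) (fun _ => hlo _) (fun _ => hhi _)
      hD hDX hinj hin (fun _ => hP _) hstrip he hcs hc0 hy1 hX1 hlen hi
  obtain ⟨v, hv0, hvQ, hv1, hv2⟩ := hgrp i₁ hg1
  obtain ⟨w, hw0, hwQ, hw1, hw2⟩ := hgrp i₂ hg2
  -- numbers
  have hnum : ∀ i, ∃ Q κ : ℝ, Q = ((∏ j, M (i, j) : ℕ) : ℝ) ∧
      κ = ((∏ j, M (i, j) : ℕ) : ℝ) ^ (1 - c₃) ∧ 0 < κ ∧ κ ≤ Real.exp (s * (2 * y)) ∧
      Real.exp (2 * y) ≤ Q ^ c₃ ∧ Q = κ * Q ^ c₃ := by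
    intro i
    have hM0 : ∀ b, (0 : ℝ) < M b := fun b => (Real.exp_pos _).trans_le (hlo b)
    have hQlo : Real.exp (s * y) ≤ ((∏ j, M (i, j) : ℕ) : ℝ) := by
      rw [Real.exp_nat_mul, Nat.cast_prod]
      calc (Real.exp y) ^ s = ∏ _j : Fin s, Real.exp y := by
            rw [Finset.prod_const, Finset.card_univ, Fintype.card_fin]
        _ ≤ _ := Finset.prod_le_prod (fun _ _ => (Real.exp_pos _).le) (fun j _ => hlo _)
    have hQhi : ((∏ j, M (i, j) : ℕ) : ℝ) ≤ Real.exp (s * (2 * y)) := by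
      rw [Real.exp_nat_mul, Nat.cast_prod]
      calc ∏ j, (M (i, j) : ℝ) ≤ ∏ _j : Fin s, Real.exp (2 * y) :=
            Finset.prod_le_prod (fun j _ => (hM0 _).le) (fun j _ => hhi _)
        _ = _ := by rw [Finset.prod_const, Finset.card_univ, Fintype.card_fin]
    have hκ0 : 0 < ((∏ j, M (i, j) : ℕ) : ℝ) ^ (1 - c₃) :=
      Real.rpow_pos_of_pos ((Real.exp_pos _).trans_le hQlo) _
    obtain ⟨_, h2, h3, _, h5, h6, _⟩ := nums (S := X / (2 * D * ((∏ j, M (i, j) : ℕ) : ℝ) ^ (1 - c₃)))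
      hs rfl hc0 hcs hQlo hQhi hD0 hy1 hX1 (le_of_eq (by
        have : (0 : ℝ) < D := by linarith
        field_simp))
    exact ⟨_, _, rfl, rfl, h2, h3.trans hQhi, h5, h6⟩
  obtain ⟨Q₁, κ₁, eQ1, eκ1, a1, a2, a3, a4⟩ := hnum i₁
  obtain ⟨Q₂, κ₂, eQ2, eκ2, b1, b2, b3, b4⟩ := hnum i₂
  rw [← eκ1] at hv1 hv2
  rw [← eκ2] at hw1 hw2
  have hy0 : 0 ≤ y := by
    have h1 : (1 : ℝ) ≤ Real.exp y := by linarith
    exact Real.one_le_exp_iff.1 h1
  have hlt : 768 * (D : ℝ) ^ 2 * Real.exp y * (κ₁ * κ₂) < X := by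
    refine lt_of_le_of_lt ?_ hX1
    have h1 : κ₁ * κ₂ ≤ Real.exp (s * (2 * y)) * Real.exp (s * (2 * y)) :=
      mul_le_mul a2 b2 b1.le (Real.exp_pos _).le
    have h2 : Real.exp ((4 * s + 1) * y) =
        Real.exp y * (Real.exp (s * (2 * y)) * Real.exp (s * (2 * y))) := by
      rw [← Real.exp_add, ← Real.exp_add]; congr 1; ring
    rw [h2, mul_assoc (768 * (D : ℝ) ^ 2)]
    have h3 : 0 ≤ Real.exp y := (Real.exp_pos y).le
    exact mul_le_mul_of_nonneg_left (mul_le_mul_of_nonneg_left h1 h3) (by positivity)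
  have hcr := cross_zero he (by linarith) a1.le b1.le hX0 hv1 hv2 hw1 hw2 hlt
  have h8 : 8 * Real.exp y ≤ X := by
    refine le_trans ?_ hX1.le
    have h1 : Real.exp y ≤ Real.exp ((4 * s + 1) * y) := by
      rw [Real.exp_le_exp]; nlinarith
    have h2 : (8 : ℝ) ≤ 768 * (D : ℝ) ^ 2 := by nlinarith
    exact mul_le_mul h2 h1 (Real.exp_pos _).le (by positivity)
  have hsv := size_bound he (by linarith) a1.le hX0 h8 hv1 hv2
  have hsw := size_bound he (by linarith) b1.le hX0 h8 hw1 hw2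
  -- end
  have hRi : ∀ i, ((∏ j, M (i, j) : ℕ) : ℤ) ∣ R ^ 2 + 1 := fun i =>
    prod_dvd (fun j j' hj => hcop (fun h => hj (Prod.mk.inj h).2)) (fun _ => hR _)
  have hcop' : IsCoprime ((∏ j, M (i₁, j) : ℕ) : ℤ) ((∏ j, M (i₂, j) : ℕ) : ℤ) := by
    rw [Nat.isCoprime_iff_coprime]
    refine Nat.Coprime.prod_left (fun j _ => Nat.Coprime.prod_right (fun j' _ => ?_))
    exact hcop (fun h => h12 (Prod.mk.inj h).1)
  obtain ⟨e1, e2⟩ := H716.end_dot (hRi i₁) (hRi i₂) hcop' hvQ hwQ hcr hv0 hw0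
  have e3 : ((H721.nm v : ℤ) : ℝ) * ((H721.nm w : ℤ) : ℝ) ≤ (49 * D * κ₁) ^ 2 * (49 * D * κ₂) ^ 2 :=
    mul_le_mul hsv hsw (by exact_mod_cast H721.nm_nonneg w) (by positivity)
  have e4 : (Q₁ * Q₂) ^ 2 ≤ (2401 * (D : ℝ) ^ 2 * (κ₁ * κ₂)) ^ 2 := by
    have e5 : (Q₁ * Q₂) ^ 2 ≤ ((H721.nm v : ℤ) : ℝ) * ((H721.nm w : ℤ) : ℝ) := by
      have e6 : (((∏ j, M (i₁, j) : ℕ) : ℤ) * ((∏ j, M (i₂, j) : ℕ) : ℤ)) ^ 2 ≤
          (v.1 * w.1 + v.2 * w.2) ^ 2 := by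
        rw [← sq_abs (v.1 * w.1 + v.2 * w.2)]
        exact pow_le_pow_left₀ (by positivity) e1 2
      rw [e2] at e6
      rw [eQ1, eQ2]
      exact_mod_cast e6
    refine e5.trans (e3.trans (le_of_eq (by ring)))
  have e5 : Q₁ * Q₂ ≤ 2401 * (D : ℝ) ^ 2 * (κ₁ * κ₂) :=
    le_of_sq_le_sq e4 (by positivity)
  exact nums2 a4 b4 a1 b1 a3 b3 hy2 e5

end Vale.Agent.P015.H886.TG
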