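import Vale.Agent.P015.H886.Pop

/-! WIN: existence of a window all of whose differences are popular. -/

namespace Vale.Agent.P015.H886

open Finset

theorem sd_nonneg (z : ℤ × ℤ) : 0 ≤ sd z := le_max_of_le_left (abs_nonneg _)

theorem sd_le {z : ℤ × ℤ} {a : ℤ} : sd z ≤ a ↔ |z.1| ≤ a ∧ |z.2| ≤ a := max_le_iff

theorem sd_add (z w : ℤ × ℤ) : sd (z + w) ≤ sd z + sd w := by
  rw [sd_le]
  simp only [Prod.fst_add, Prod.snd_add]
  exact ⟨(abs_add_le _ _).trans (add_le_add (le_max_left _ _) (le_max_left _ _)),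
    (abs_add_le _ _).trans (add_le_add (le_max_right _ _) (le_max_right _ _))⟩

theorem sd_neg (z : ℤ × ℤ) : sd (-z) = sd z := by
  simp [sd]

theorem sd_sub_comm (z w : ℤ × ℤ) : sd (z - w) = sd (w - z) := by
  rw [← sd_neg, neg_sub]

theorem sd_sub_le (a b c : ℤ × ℤ) : sd (a - c) ≤ sd (a - b) + sd (b - c) := by
  have := sd_add (a - b) (b - c)
  rwa [sub_add_sub_cancel] at this

/-- ball of radius `n` -/
noncomputable def ball (n : ℕ) : Finset (ℤ × ℤ) := Finset.Icc (-(n : ℤ)) n ×ˢ Finset.Icc (-(n : ℤ)) n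

theorem mem_ball {n : ℕ} {z : ℤ × ℤ} : z ∈ ball n ↔ sd z ≤ n := by
  rw [ball, Finset.mem_product, Finset.mem_Icc, Finset.mem_Icc, sd_le, abs_le, abs_le]

theorem card_ball (n : ℕ) : (ball n).card = (2 * n + 1) ^ 2 := by
  rw [ball, Finset.card_product, Int.card_Icc, sq]
  have : ((n : ℤ) + 1 - -(n : ℤ)).toNat = 2 * n + 1 := by omega
  rw [this]

/-- distinct points in a class are far apart -/
theorem lat_norm {R : ℤ} {M : ℕ} (hR : (M : ℤ) ∣ R ^ 2 + 1) {z : ℤ × ℤ} (h : (M : ℤ) ∣ lf R z) :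
    (M : ℤ) ∣ z.1 ^ 2 + z.2 ^ 2 := by
  have h1 : z.1 ^ 2 + z.2 ^ 2 = lf R z * (z.1 - R * z.2) + (R ^ 2 + 1) * z.2 ^ 2 := by
    rw [lf]; ring
  rw [h1]
  exact dvd_add (dvd_mul_of_dvd_left h _) (dvd_mul_of_dvd_left hR _)

theorem res_eq {R : ℤ} {M : ℕ} {z w : ℤ × ℤ} (h : res R M z = res R M w) :
    (M : ℤ) ∣ lf R (z - w) := by
  rw [lf_sub]
  exact Int.ModEq.dvd (show lf R w ≡ lf R z [ZMOD M] from h.symm)

theorem eq_of_res {R : ℤ} {M : ℕ} (hR : (M : ℤ) ∣ R ^ 2 + 1) {z w : ℤ × ℤ} {ρ : ℤ}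
    (h : res R M z = res R M w) (hd : sd (z - w) ≤ ρ) (hρ : 2 * ρ ^ 2 < M) : z = w := by
  have h1 := lat_norm hR (res_eq h)
  rw [sd_le] at hd
  have h2 : (z - w).1 ^ 2 ≤ ρ ^ 2 := sq_le_sq' (by linarith [abs_le.1 hd.1]) (abs_le.1 hd.1).2
  have h3 : (z - w).2 ^ 2 ≤ ρ ^ 2 := sq_le_sq' (by linarith [abs_le.1 hd.2]) (abs_le.1 hd.2).2
  have h4 : (z - w).1 ^ 2 + (z - w).2 ^ 2 = 0 := by
    by_contra hne
    have h5 : 0 < (z - w).1 ^ 2 + (z - w).2 ^ 2 :=
      lt_of_le_of_ne (by positivity) (Ne.symm hne)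
    have := Int.le_of_dvd h5 h1
    linarith
  have h5 : (z - w).1 = 0 := by nlinarith [sq_nonneg (z - w).1, sq_nonneg (z - w).2]
  have h6 : (z - w).2 = 0 := by nlinarith [sq_nonneg (z - w).1, sq_nonneg (z - w).2]
  have h7 : z - w = 0 := Prod.ext h5 h6
  exact sub_eq_zero.1 h7

/-- a long path visits many classes -/
theorem classes_lower {D N : ℕ} {R : ℤ} {M : ℕ} {g : ℕ → ℤ × ℤ} (hD : 1 ≤ D)
    (hR : (M : ℤ) ∣ R ^ 2 + 1)
    (hstep : ∀ i, i + 1 < N → sd (g (i + 1) - g i) ≤ D)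
    (hinj : ∀ i < N, ∀ j < N, g i = g j → i = j) (hN : M ≤ N) {n : ℕ}
    (hn : 9 * (D * n) ^ 2 < M) : n ≤ (cl R M ((range N).image g)).card := by
  rcases Nat.eq_zero_or_pos n with rfl | hn0
  · exact Nat.zero_le _
  have hN0 : 0 < N := by omega
  -- a far point
  have hfar : ∃ t, t < N ∧ ((D * n : ℕ) : ℤ) < sd (g t - g 0) := by
    by_contra hcon
    push Not at hcon
    have h1 : N ≤ (ball (D * n)).card := by
      have h2 : ((range N).image (fun t => g t - g 0)).card = N := by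
        rw [Finset.card_image_of_injOn, Finset.card_range]
        intro i hi j hj hij
        exact hinj i (Finset.mem_range.1 hi) j (Finset.mem_range.1 hj) (sub_left_injective hij)
      rw [← h2]
      apply Finset.card_le_card
      intro z hz
      obtain ⟨t, ht, rfl⟩ := Finset.mem_image.1 hz
      exact mem_ball.2 (hcon t (Finset.mem_range.1 ht))
    rw [card_ball] at h1
    have h3 : 1 ≤ D * n := Nat.mul_pos hD hn0
    nlinarith
  obtain ⟨ts, hts, hfar⟩ := hfar
  -- times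
  have htime : ∀ k : ℕ, k < n → ∃ t, t < N ∧ ((k * D : ℕ) : ℤ) ≤ sd (g t - g 0) ∧
      sd (g t - g 0) < (((k + 1) * D : ℕ) : ℤ) := by
    intro k hk
    have hex : ∃ t, ((k * D : ℕ) : ℤ) ≤ sd (g t - g 0) := ⟨ts, by
      refine le_trans ?_ hfar.le
      have : k * D ≤ D * n := by nlinarith
      exact_mod_cast this⟩
    classical
    set t := Nat.find hex with ht
    have h1 : ((k * D : ℕ) : ℤ) ≤ sd (g t - g 0) := Nat.find_spec hex
    have h2 : t ≤ ts := Nat.find_min' hex (by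
      refine le_trans ?_ hfar.le
      have : k * D ≤ D * n := by nlinarith
      exact_mod_cast this)
    refine ⟨t, by omega, h1, ?_⟩
    rcases Nat.eq_zero_or_pos t with h0 | h0
    · rw [h0, sub_self]
      have : sd (0 : ℤ × ℤ) = 0 := by simp [sd]
      rw [this]
      have : 0 < (k + 1) * D := Nat.mul_pos (by omega) hD
      exact_mod_cast this
    · obtain ⟨t', ht'⟩ : ∃ t', t = t' + 1 := ⟨t - 1, by omega⟩
      have h3 : ¬ ((k * D : ℕ) : ℤ) ≤ sd (g t' - g 0) := Nat.find_min hex (by omega)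
      have h4 := sd_sub_le (g t) (g t') (g 0)
      have h5 := hstep t' (by omega)
      rw [← ht'] at h5
      push_cast at h3 ⊢
      linarith
  choose! tt htt using htime
  have hmap : ∀ k ∈ range n, res R M (g (tt k)) ∈ cl R M ((range N).image g) := by
    intro k hk
    have := htt k (Finset.mem_range.1 hk)
    exact Finset.mem_image_of_mem _ (Finset.mem_image_of_mem _ (Finset.mem_range.2 this.1))
  have hinj' : Set.InjOn (fun k => res R M (g (tt k))) (range n : Finset ℕ) := by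
    intro k hk k' hk' he
    have h1 := htt k (Finset.mem_range.1 (Finset.mem_coe.1 hk))
    have h2 := htt k' (Finset.mem_range.1 (Finset.mem_coe.1 hk'))
    have hk1 := Finset.mem_range.1 (Finset.mem_coe.1 hk)
    have hk2 := Finset.mem_range.1 (Finset.mem_coe.1 hk')
    have hle : ∀ j : ℕ, j < n → (((j + 1) * D : ℕ) : ℤ) ≤ ((D * n : ℕ) : ℤ) := by
      intro j hj
      have : (j + 1) * D ≤ D * n := by nlinarith
      exact_mod_cast this
    have h3 : sd (g (tt k) - g (tt k')) ≤ 2 * ((D * n : ℕ) : ℤ) := by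
      have h4 := sd_sub_le (g (tt k)) (g 0) (g (tt k'))
      rw [sd_sub_comm (g 0)] at h4
      linarith [h1.2.2, h2.2.2, hle k hk1, hle k' hk2]
    have h5 : g (tt k) = g (tt k') := by
      refine eq_of_res hR he h3 ?_
      have : ((9 * (D * n) ^ 2 : ℕ) : ℤ) < M := by exact_mod_cast hn
      push_cast at this ⊢
      nlinarith
    rw [h5] at h1
    by_contra hne
    rcases Nat.lt_or_gt_of_ne hne with hlt | hlt
    · have : (((k + 1) * D : ℕ) : ℤ) ≤ ((k' * D : ℕ) : ℤ) := by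
        exact_mod_cast Nat.mul_le_mul_right D hlt
      linarith [h1.2.2, h2.2.1]
    · have : (((k' + 1) * D : ℕ) : ℤ) ≤ ((k * D : ℕ) : ℤ) := by
        exact_mod_cast Nat.mul_le_mul_right D hlt
      linarith [h1.2.1, h2.2.2]
  have := Finset.card_le_card_of_injOn _ (fun k hk => hmap k hk) hinj'
  rwa [Finset.card_range] at this

theorem card_image_add_le (S : Finset ℤ) (B : Finset (ℤ × ℤ)) (f : ℤ → ℤ × ℤ → ℤ) (T : Finset ℤ)
    (h : ∀ x ∈ T, ∃ s ∈ S, ∃ v ∈ B, x = f s v) : T.card ≤ B.card * S.card := by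
  classical
  have h1 : T ⊆ (S ×ˢ B).image (fun q => f q.1 q.2) := by
    intro x hx
    obtain ⟨s, hs, v, hv, rfl⟩ := h x hx
    exact Finset.mem_image.2 ⟨(s, v), Finset.mem_product.2 ⟨hs, hv⟩, rfl⟩
  refine (Finset.card_le_card h1).trans (Finset.card_image_le.trans ?_)
  rw [Finset.card_product, mul_comm]

section
variable {ι : Type*} [Fintype ι] [DecidableEq ι] {R : ℤ} {M : ι → ℕ}

/-- **window of popular differences** -/
theorem window {D N X : ℕ} {g : ℕ → ℤ × ℤ} (hD : 1 ≤ D)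
    (hcop : Pairwise (fun b b' => Nat.Coprime (M b) (M b')))
    (hR : ∀ b, (M b : ℤ) ∣ R ^ 2 + 1)
    (hstep : ∀ i, i + 1 < N → sd (g (i + 1) - g i) ≤ D)
    (hinj : ∀ i < N, ∀ j < N, g i = g j → i = j) (hN : ∏ b, M b ≤ N) {K L : ℝ}
    (hL0 : 0 ≤ L)
    (hL : ∏ b, ((cl R (M b) ((range N).image g)).card : ℝ) ≤
      L * (cl R (∏ b, M b) ((range N).image g)).card)
    (hK : 2 * (4 * ((X : ℝ) + D) + 1) ^ 4 * L ≤ K) (hK0 : 0 < K)
    (hX : (100 * D * (2 * X + 1) ^ 2) ^ 2 ≤ ∏ b, M b) :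
    ∃ t0 t1, t0 ≤ t1 ∧ t1 < N ∧ (X : ℤ) < sd (g t1 - g t0) ∧
      (∀ t, t0 ≤ t → t ≤ t1 → sd (g t - g t0) ≤ X + D) ∧
      ∀ t t', t0 ≤ t → t ≤ t1 → t0 ≤ t' → t' ≤ t1 →
        ∏ b, ((cl R (M b) ((range N).image g)).card : ℝ) ≤
          K * ∏ b, ((pop R (M b) ((range N).image g) (g t' - g t)).card : ℝ) := by
  classical
  set G : Finset (ℤ × ℤ) := (range N).image g with hG
  set Mt : ℕ := ∏ b, M b with hMt
  set C : Finset ℤ := cl R Mt G with hC
  have hRt : (Mt : ℤ) ∣ R ^ 2 + 1 := prod_dvd hcop hR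
  have hCl : 4 * (2 * X + 1) ^ 2 ≤ C.card := by
    refine classes_lower hD hRt hstep hinj hN ?_
    refine lt_of_lt_of_le ?_ hX
    have h1 : 0 < D * (2 * X + 1) ^ 2 := by positivity
    nlinarith
  have hC1 : (1 : ℝ) ≤ C.card := by
    have : 1 ≤ C.card := le_trans (Nat.succ_le_of_lt (by positivity)) hCl
    exact_mod_cast this
  set bad : ℤ × ℤ → Prop := fun h => K * ∏ b, ((pop R (M b) G h).card : ℝ) <
    ∏ b, ((cl R (M b) G).card : ℝ) with hbad
  -- number of `x` with `x + h ∈ C` for bad `h`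
  have hbadc : ∀ h, bad h → K * ((pop R Mt G h).card : ℝ) ≤ L * C.card := by
    intro h hb
    have h1 : ((pop R Mt G h).card : ℝ) ≤ ∏ b, ((pop R (M b) G h).card : ℝ) := by
      exact_mod_cast pop2 hcop G h
    calc K * ((pop R Mt G h).card : ℝ) ≤ K * ∏ b, ((pop R (M b) G h).card : ℝ) := by gcongr
      _ ≤ ∏ b, ((cl R (M b) G).card : ℝ) := hb.le
      _ ≤ _ := hL
  -- spoiled classes
  set Sp : Finset ℤ := ((ball (2 * (X + D))).filter bad).biUnion (fun h => pop R Mt G h) with hSp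
  have hSpc : K * (Sp.card : ℝ) ≤ ((2 * (2 * (X + D)) + 1) ^ 2 : ℕ) * (L * C.card) := by
    have h1 : (Sp.card : ℝ) ≤ ∑ h ∈ (ball (2 * (X + D))).filter bad, ((pop R Mt G h).card : ℝ) := by
      exact_mod_cast Finset.card_biUnion_le
    calc K * (Sp.card : ℝ)
        ≤ K * ∑ h ∈ (ball (2 * (X + D))).filter bad, ((pop R Mt G h).card : ℝ) := by gcongr
      _ = ∑ h ∈ (ball (2 * (X + D))).filter bad, K * ((pop R Mt G h).card : ℝ) :=
          Finset.mul_sum _ _ _
      _ ≤ ∑ h ∈ (ball (2 * (X + D))).filter bad, L * (C.card : ℝ) :=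
          Finset.sum_le_sum (fun h hh => hbadc h (Finset.mem_filter.1 hh).2)
      _ = (((ball (2 * (X + D))).filter bad).card : ℝ) * (L * C.card) := by
          rw [Finset.sum_const, nsmul_eq_mul]
      _ ≤ _ := by
          have h2 : ((ball (2 * (X + D))).filter bad).card ≤ (2 * (2 * (X + D)) + 1) ^ 2 := by
            rw [← card_ball]; exact Finset.card_filter_le _ _
          have h3 : (0 : ℝ) ≤ L * C.card := by positivity
          gcongr
  -- times
  have htime : ∀ x ∈ C, ∃ t, t < N ∧ res R Mt (g t) = x := by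
    intro x hx
    obtain ⟨z, hz, hzx⟩ := Finset.mem_image.1 hx
    obtain ⟨t, ht, rfl⟩ := Finset.mem_image.1 hz
    exact ⟨t, Finset.mem_range.1 ht, hzx⟩
  choose! tm htm using htime
  by_contra hcon
  push Not at hcon
  -- classes without window
  set C0 : Finset ℤ := C.filter (fun x => ∀ t, tm x ≤ t → t < N → sd (g t - g (tm x)) ≤ X) with hC0
  have hC0c : C0.card ≤ (2 * X + 1) ^ 2 := by
    rw [← card_ball]
    refine Finset.card_le_card_of_injOn (fun x => g (tm x) - g (N - 1)) ?_ ?_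
    · intro x hx
      rw [Finset.mem_coe, hC0, Finset.mem_filter] at hx
      have h1 := htm x hx.1
      have h2 := hx.2 (N - 1) (by omega) (by omega)
      rw [Finset.mem_coe, mem_ball, sd_sub_comm]
      exact h2
    · intro x hx x' hx' he
      rw [Finset.mem_coe, hC0, Finset.mem_filter] at hx hx'
      have h1 := htm x hx.1
      have h2 := htm x' hx'.1
      have h3 : g (tm x) = g (tm x') := sub_left_injective he
      rw [← h1.2, ← h2.2, h3]
  -- the other classes see a spoiled class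
  have hC1c : (C \ C0).card ≤ (ball (X + D)).card * Sp.card := by
    refine card_image_add_le Sp (ball (X + D)) (fun s v => (s - lf R v) % Mt) _ ?_
    intro x hx
    rw [Finset.mem_sdiff] at hx
    obtain ⟨hxC, hx0⟩ := hx
    have h1 := htm x hxC
    have h2 : ∃ t, tm x ≤ t ∧ t < N ∧ (X : ℤ) < sd (g t - g (tm x)) := by
      by_contra hc
      push Not at hc
      exact hx0 (Finset.mem_filter.2 ⟨hxC, hc⟩)
    set t1 := Nat.find h2 with ht1
    obtain ⟨ha, hb, hc⟩ := Nat.find_spec h2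
    rw [← ht1] at ha hb hc
    have hin : ∀ t, tm x ≤ t → t ≤ t1 → sd (g t - g (tm x)) ≤ X + D := by
      intro t h3 h4
      rcases Nat.lt_or_ge t t1 with h5 | h5
      · have h6 := Nat.find_min h2 h5
        have h7 : ¬ (X : ℤ) < sd (g t - g (tm x)) := fun h8 => h6 ⟨h3, by omega, h8⟩
        have : (0 : ℤ) ≤ D := Int.natCast_nonneg D
        linarith
      · have h6 : t = t1 := le_antisymm h4 h5
        subst h6
        rcases Nat.eq_or_lt_of_le ha with h7 | h7
        · rw [h7, sub_self]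
          have : sd (0 : ℤ × ℤ) = 0 := by simp [sd]
          rw [this]; positivity
        · obtain ⟨t', ht'⟩ : ∃ t', t1 = t' + 1 := ⟨t1 - 1, by omega⟩
          have h8 : ¬ (X : ℤ) < sd (g t' - g (tm x)) := fun h9 =>
            Nat.find_min h2 (show t' < Nat.find h2 by omega) ⟨by omega, by omega, h9⟩
          have h9 := sd_sub_le (g t1) (g t') (g (tm x))
          have h10 := hstep t' (by omega)
          rw [← ht'] at h10
          linarith
    obtain ⟨t, t', h3, h4, h5, h6, h7⟩ := hcon (tm x) t1 ha hb hc hin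
    have hbd : bad (g t' - g t) := h7
    have h8 : res R Mt (g t) ∈ Sp := by
      rw [hSp, Finset.mem_biUnion]
      refine ⟨g t' - g t, ?_, ?_⟩
      · rw [Finset.mem_filter, mem_ball]
        refine ⟨?_, hbd⟩
        have h9 := sd_sub_le (g t') (g (tm x)) (g t)
        rw [sd_sub_comm (g (tm x))] at h9
        have h10 := hin t h3 h4
        have h11 := hin t' h5 h6
        push_cast
        linarith
      · rw [pop, Finset.mem_filter]
        have h9 : ∀ i < N, res R Mt (g i) ∈ cl R Mt G := fun i hi =>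
          Finset.mem_image_of_mem _ (Finset.mem_image_of_mem _ (Finset.mem_range.2 hi))
        refine ⟨h9 t (by omega), ?_⟩
        have e : (res R Mt (g t) + lf R (g t' - g t)) % (Mt : ℤ) = res R Mt (g t') := by
          rw [res, res, Int.emod_add_emod, ← lf_add, add_sub_cancel]
        rw [e]
        exact h9 t' (by omega)
    refine ⟨_, h8, g t - g (tm x), mem_ball.2 ?_, ?_⟩
    · have := hin t h3 h4
      push_cast
      exact this
    · have e : (res R Mt (g t) - lf R (g t - g (tm x))) % (Mt : ℤ) = res R Mt (g (tm x)) := by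
        rw [res, res, Int.sub_emod, Int.emod_emod_of_dvd _ dvd_rfl, ← Int.sub_emod, ← lf_sub,
          sub_sub_cancel]
      rw [e, h1.2]
  -- count
  have h1 : (C.card : ℝ) ≤ (2 * X + 1) ^ 2 + ((2 * (X + D) + 1) ^ 2 : ℕ) * Sp.card := by
    have h2 : C.card ≤ C0.card + (C \ C0).card := by
      have hsub : C0 ⊆ C := Finset.filter_subset _ _
      have := Finset.card_sdiff_add_card_eq_card hsub
      omega
    rw [card_ball] at hC1c
    have h3 : C.card ≤ (2 * X + 1) ^ 2 + (2 * (X + D) + 1) ^ 2 * Sp.card := by omega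
    exact_mod_cast h3
  have h2 : K * (((2 * (X + D) + 1) ^ 2 : ℕ) * (Sp.card : ℝ)) ≤ K * (C.card / 2) := by
    calc K * (((2 * (X + D) + 1) ^ 2 : ℕ) * (Sp.card : ℝ))
        = ((2 * (X + D) + 1) ^ 2 : ℕ) * (K * Sp.card) := by ring
      _ ≤ ((2 * (X + D) + 1) ^ 2 : ℕ) * (((2 * (2 * (X + D)) + 1) ^ 2 : ℕ) * (L * C.card)) := by
          gcongr
      _ ≤ (2 * (4 * ((X : ℝ) + D) + 1) ^ 4 * L) * (C.card / 2) := by
          push_cast
          have e : (2 * (4 * ((X : ℝ) + D) + 1) ^ 4 * L) * (C.card / 2)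
              = (4 * ((X : ℝ) + D) + 1) ^ 2 * ((4 * ((X : ℝ) + D) + 1) ^ 2 * (L * C.card)) := by ring
          rw [e]
          have e2 : (2 * (2 * ((X : ℝ) + D)) + 1) = 4 * ((X : ℝ) + D) + 1 := by ring
          rw [e2]
          have h3 : (2 * ((X : ℝ) + D) + 1) ^ 2 ≤ (4 * ((X : ℝ) + D) + 1) ^ 2 := by
            have : (0 : ℝ) ≤ (X : ℝ) + D := by positivity
            apply pow_le_pow_left₀ (by positivity)
            linarith
          gcongr
      _ ≤ K * (C.card / 2) := by gcongr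
  have h3 := le_of_mul_le_mul_left h2 hK0
  have h4 : (4 : ℝ) * (2 * X + 1) ^ 2 ≤ C.card := by exact_mod_cast hCl
  linarith

end

end Vale.Agent.P015.H886
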